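import Mathlib

/-!
# P297: the substitution `s ↦ (1 + y) ^ ρ * s (-y / (1 + y))` on power series
-/

set_option linter.all false

noncomputable section

namespace Vale.Agent.P297Z.Cc

open PowerSeries Finset

variable {A : Type*} [CommRing A]

/-- the series `-y / (1 + y)` -/
def uu (A : Type*) [CommRing A] : A⟦X⟧ := -(X * binomialSeries A (-1 : ℤ))

theorem uu_subst : HasSubst (uu A) := HasSubst.of_constantCoeff_zero' (by simp [uu])

theorem bin_mul_uu (ρ : ℤ) (j : ℕ) : binomialSeries A ρ * uu A ^ j =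
    (-1) ^ j * (X ^ j * binomialSeries A (ρ - j)) := by
  induction j with
  | zero => simp
  | succ j ih =>
    rw [pow_succ, ← mul_assoc, ih, show ρ - ((j + 1 : ℕ) : ℤ) = ρ - j + -1 by push_cast; ring,
      binomialSeries_add, uu]
    ring

/-- the coefficients of the transform -/
def ph (ρ : ℤ) (s : A⟦X⟧) (i : ℕ) : A :=
  ∑ j ∈ range (i + 1), ((-1) ^ j * Ring.choose (ρ - j) (i - j) : ℤ) • coeff j s

/-- the substitution -/
def sb (A : Type*) [CommRing A] : A⟦X⟧ →ₐ[A] A⟦X⟧ := substAlgHom (R := A) uu_subst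

theorem coeff_ph (ρ : ℤ) (s : A⟦X⟧) (i : ℕ) :
    coeff i (binomialSeries A ρ * sb A s) = ph ρ s i := by
  have h1 : sb A X = uu A := substAlgHom_X _
  have h2 : ∀ p : Polynomial A, sb A p = p.eval₂ C (uu A) := fun p => substAlgHom_coe _ p
  conv_lhs => rw [eq_X_pow_mul_shift_add_trunc (i + 1) s]
  rw [map_add, map_mul (sb A), map_pow, h1, h2, eval₂_trunc_eq_sum_range, mul_add, ← mul_assoc,
    bin_mul_uu, map_add, mul_sum, map_sum, ph, mul_left_comm, mul_assoc, coeff_X_pow_mul',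
    if_neg (by omega), zero_add]
  refine sum_congr rfl fun j hj => ?_
  rw [mul_left_comm, bin_mul_uu, coeff_C_mul, mul_left_comm, coeff_X_pow_mul',
    if_pos (Nat.lt_succ_iff.1 (mem_range.1 hj)),
    show ((-1) ^ j : A⟦X⟧) = C ((-1) ^ j) by simp, coeff_C_mul, binomialSeries_coeff]
  simp [mul_comm]

theorem ph_mul (ρ σ : ℤ) (s t : A⟦X⟧) : PowerSeries.mk (ph (ρ + σ) (s * t)) =
    PowerSeries.mk (ph ρ s) * PowerSeries.mk (ph σ t) := by
  have h : ∀ ρ s, PowerSeries.mk (ph ρ s) = binomialSeries A ρ * sb A s :=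
    fun ρ s => PowerSeries.ext fun i => by rw [coeff_mk, coeff_ph]
  rw [h, h, h, binomialSeries_add, map_mul]
  ring

theorem twist (ρ : ℤ) (l : A) (n j : ℕ) (hj : j ≤ n) :
    ∑ i ∈ Ico j (n + 1), (Ring.choose (ρ - i) (n - i) * Ring.choose (ρ - j) (i - j) : ℤ) •
      ((1 - l) ^ (n - i) * l ^ i) = Ring.choose (ρ - j) (n - j) • l ^ j := by
  obtain ⟨m, rfl⟩ := Nat.exists_eq_add_of_le hj
  have h := congrArg (l ^ j * ·) (add_pow l (1 - l) m)
  simp only [add_sub_cancel, one_pow, mul_one] at h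
  rw [sum_Ico_eq_sum_range, show j + m + 1 - j = m + 1 by omega, add_tsub_cancel_left]
  refine Eq.trans ?_ (congrArg _ h.symm)
  rw [mul_sum, smul_sum]
  refine sum_congr rfl fun k hk => ?_
  have h1 := Ring.choose_smul_choose (ρ - j) (Nat.lt_succ_iff.1 (mem_range.1 hk))
  rw [add_tsub_cancel_left, show j + m - (j + k) = m - k by omega,
    show ρ - ((j + k : ℕ) : ℤ) = ρ - j - k by push_cast; ring, mul_comm (Ring.choose _ _), ← h1]
  simp only [zsmul_eq_mul, nsmul_eq_mul, Int.cast_mul, Int.cast_natCast]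
  ring

end Vale.Agent.P297Z.Cc
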