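import Vale.Agent.P297Z.Ch.Lam
import Vale.Agent.P297Z.Ch.CcA

/-!
# P297: formal calculus of Chern classes and symmetric powers
-/

set_option linter.all false

noncomputable section

namespace Vale.Agent.P297Z

open PowerSeries Finset GMod

variable {W W₁ W₂ X Y : Spc}

theorem coeff_cT (i : ℕ) (a : K0 X) : coeff i (cT a) = cc i a := coeff_mk _ _

theorem cT_add (a b : K0 X) : cT (a + b) = cT a * cT b := by
  have h : ∀ a : K0 X, cT a = PowerSeries.mk (Cc.ph (rk X a) (lamS a)) := fun _ => rfl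
  rw [h, h, h, map_add, lamS_add, Cc.ph_mul]

theorem cc_zero (a : K0 X) : cc 0 a = 1 := by simp [cc, lam_zero]

theorem cc_one (a : K0 X) : cc 1 a = (rk X a : K0 X) - a := by
  simp [cc, sum_range_succ, lam_zero, lam_one, sub_eq_add_neg]

theorem cc_gt {a : K0 X} {r i : ℕ} (h : BCls a r) (hi : r < i) : cc i a = 0 := by
  refine sum_eq_zero fun j hj => ?_
  rcases le_or_gt j r with h1 | h1
  · rw [h.rk, ← Nat.cast_sub h1, Ring.choose_natCast, Nat.choose_eq_zero_of_lt (by omega)]
    simp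
  · rw [lam_gt h h1, smul_zero]

theorem cc_top {a : K0 X} {r : ℕ} (h : BCls a r) :
    cc r a = ∑ j ∈ range (r + 1), (-1) ^ j * lam j a := by
  refine sum_congr rfl fun j hj => ?_
  rw [h.rk, ← Nat.cast_sub (Nat.lt_succ_iff.1 (mem_range.1 hj)), Ring.choose_natCast,
    Nat.choose_self]
  simp

theorem cT_rk1 {l : K0 X} (h : BCls l 1) : cT l = 1 + C (1 - l) * PowerSeries.X := by
  ext i
  rw [coeff_cT]
  rcases i with _ | _ | i
  · simp [cc_zero]
  · simp [cc_one, h.rk, coeff_one]
  · rw [cc_gt h (by omega)]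
    simp [coeff_one, coeff_C, coeff_X]

theorem cT_zero : cT (0 : K0 X) = 1 := by
  have h := cT_add (1 : K0 X) 0
  rw [add_zero, cT_rk1 bCls_one] at h
  simpa using h.symm

theorem cT_neg_mul (a : K0 X) : cT (-a) * cT a = 1 := by rw [← cT_add, neg_add_cancel, cT_zero]

theorem cT_sum {ι : Type*} (s : Finset ι) (a : ι → K0 X) :
    cT (∑ i ∈ s, a i) = ∏ i ∈ s, cT (a i) := by
  induction s using Finset.cons_induction with
  | empty => exact cT_zero
  | cons i s hi ih => rw [sum_cons, prod_cons, cT_add, ih]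

theorem cT_list (l : List (K0 X)) : cT l.sum = (l.map cT).prod := by
  induction l with
  | nil => exact cT_zero
  | cons a l ih => rw [List.sum_cons, List.map_cons, List.prod_cons, cT_add, ih]

theorem cT_nsmul (n : ℕ) (a : K0 X) : cT (n • a) = cT a ^ n := by
  simpa using cT_sum (range n) fun _ => a

theorem cc_add (n : ℕ) (a b : K0 X) :
    cc n (a + b) = ∑ p ∈ antidiagonal n, cc p.1 a * cc p.2 b := by
  simp only [← coeff_cT, cT_add, coeff_mul]

theorem cc_pull (f : Mor W X) (i : ℕ) (a : K0 X) : pullK f (cc i a) = cc i (pullK f a) := by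
  simp only [cc, map_sum, map_zsmul, lam_pull, rk_pullK]

theorem cT_pull (f : Mor W X) (a : K0 X) : map (pullK f) (cT a) = cT (pullK f a) := by
  ext i
  rw [coeff_map, coeff_cT, coeff_cT, cc_pull]

theorem cT_int (n : ℤ) : cT (n : K0 X) = 1 := by
  have h : ∀ n : ℕ, cT (n : K0 X) = 1 := fun n => by
    rw [← nsmul_one, cT_nsmul, cT_rk1 bCls_one]
    simp
  obtain ⟨n, rfl | rfl⟩ := n.eq_nat_or_neg
  · rw [Int.cast_natCast, h]
  · rw [Int.cast_neg, Int.cast_natCast, ← cT_neg_mul (n : K0 X), h, mul_one]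

theorem rk_cc (i : ℕ) (a : K0 X) : rk X (cc (i + 1) a) = 0 := by
  have h : rk X (cc (i + 1) a) = rk X (cc (i + 1) (rk X a : K0 X)) := by
    simp only [cc, map_sum, map_zsmul, rk_lam, map_intCast, Int.cast_id]
  rw [h, ← coeff_cT, cT_int, coeff_one, if_neg (by omega), map_zero]

/-- the exact twist formula -/
theorem cc_line_mul (γ : X.J → ℤ) (n : ℕ) (a : K0 X) : cc n (line X γ * a) =
    ∑ i ∈ range (n + 1), Ring.choose (rk X a - i) (n - i) •
      ((1 - line X γ) ^ (n - i) * line X γ ^ i * cc i a) := by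
  simp only [cc, mul_sum, smul_sum, lam_line_mul, map_mul, rk_line, one_mul]
  rw [sum_comm' (t' := range (n + 1)) (s' := fun j => Ico j (n + 1))
    (by simp only [mem_range, mem_Ico]; omega)]
  refine sum_congr rfl fun j hj => ?_
  have h := congrArg (· * ((-1) ^ j * lam j a))
    (Cc.twist (rk X a) (line X γ) n j (Nat.lt_succ_iff.1 (mem_range.1 hj)))
  simp only [sum_mul] at h
  refine Eq.trans ?_ (h.symm.trans (sum_congr rfl fun i _ => ?_)) <;>
    simp only [zsmul_eq_mul, Int.cast_mul, Int.cast_pow, Int.cast_neg, Int.cast_one] <;> ring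

theorem Cc.sig_nat (k : ℕ) (a : K0 X) : sig k a = (-1) ^ k * lam k (-a) := by simp [sig]

/-- the Segre classes of a class of rank one -/
theorem cc_neg_rk1 {a : K0 X} (h : rk X a = 1) (i : ℕ) :
    cc i (-a) = ∑ k ∈ range (i + 1), ((-1) ^ (i - k) * i.choose k : ℤ) • sig k a := by
  refine sum_congr rfl fun j hj => ?_
  obtain ⟨m, rfl⟩ := Nat.exists_eq_add_of_le (Nat.lt_succ_iff.1 (mem_range.1 hj))
  rw [map_neg, h, Cc.sig_nat, add_tsub_cancel_left, show (-1 - j : ℤ) = -(j + 1) by ring,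
    Ring.choose_neg, show (j + 1 + m - 1 : ℤ) = (j + m : ℕ) by push_cast; ring,
    Ring.choose_natCast, Nat.choose_symm_add, Units.smul_def, Int.coe_negOnePow_natCast]
  simp only [zsmul_eq_mul, Int.cast_mul, Int.cast_pow, Int.cast_neg, Int.cast_one, smul_eq_mul]
  ring

theorem sig_zero (a : K0 X) : sig 0 a = 1 := by simp [sig, lam_zero]

theorem sig_neg {k : ℤ} (hk : k < 0) (a : K0 X) : sig k a = 0 := if_neg hk.not_ge

theorem sig_pull (f : Mor W X) (k : ℤ) (a : K0 X) : pullK f (sig k a) = sig k (pullK f a) := by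
  unfold sig
  split_ifs <;> simp [lam_pull]

theorem sig_line_mul (γ : X.J → ℤ) (k : ℕ) (a : K0 X) :
    sig k (line X γ * a) = line X γ ^ k * sig k a := by
  rw [Cc.sig_nat, Cc.sig_nat, ← mul_neg, lam_line_mul, mul_left_comm]

theorem sig_sub {b : K0 X} {s : ℕ} (hb : BCls b s) (a : K0 X) (k : ℤ) :
    sig k (a - b) = ∑ j ∈ range (s + 1), (-1) ^ j * lam j b * sig (k - j) a := by
  rcases lt_or_ge k 0 with hk | hk
  · rw [sig_neg hk, sum_eq_zero fun j _ => by rw [sig_neg (by omega), mul_zero]]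
  obtain ⟨n, rfl⟩ := Int.eq_ofNat_of_zero_le hk
  rw [sum_subset (s₂ := range (n + s + 1)) (by simp) fun j _ hj => by
      rw [lam_gt hb (by simpa using hj), mul_zero, zero_mul],
    ← sum_subset (s₁ := range (n + 1)) (by simp) fun j _ hj => by
      rw [sig_neg (by simp at hj; omega), mul_zero],
    Cc.sig_nat, neg_sub, sub_eq_add_neg, lam_add, Nat.sum_antidiagonal_eq_sum_range_succ_mk,
    mul_sum]
  refine sum_congr rfl fun j hj => ?_
  obtain ⟨m, rfl⟩ := Nat.exists_eq_add_of_le (Nat.lt_succ_iff.1 (mem_range.1 hj))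
  rw [Nat.cast_add, add_sub_cancel_left, add_tsub_cancel_left, Cc.sig_nat]
  ring

theorem sig_add_line (γ : X.J → ℤ) (a : K0 X) (k : ℤ) :
    sig k (a + line X γ) - line X γ * sig (k - 1) (a + line X γ) = sig k a := by
  have h := sig_sub (bCls_line γ) (a + line X γ) k
  rw [add_sub_cancel_right] at h
  simp [h, sum_range_succ, lam_zero, lam_one, sub_eq_add_neg]

end Vale.Agent.P297Z
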