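import Vale.Agent.P297Z.Ch.PB
import Vale.Agent.P297Z.Ch.Cc

/-!
# P297: the splitting principle; Chern classes lower the dimension
-/

set_option linter.all false

noncomputable section

namespace Vale.Agent.P297Z

open PowerSeries Finset GMod

variable {W W₁ W₂ X Y : Spc}

namespace Rk

theorem pull_lines (π : Mor W₁ W) (l : List (W.J → ℤ)) :
    pullK π (l.map (line W)).sum = ((l.map π.ρ).map (line W₁)).sum := by
  rw [map_list_sum, List.map_map, List.map_map]
  exact congrArg _ (List.map_congr_left fun γ _ => pullK_line π γ)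

theorem split (r : ℕ) : ∀ {W : Spc}, W.Free → ∀ B : Bun W, B.rk = r →
    ∃ (W₁ : Spc) (π : Mor W₁ W), W₁.Free ∧ Dom π ∧
      ∃ l : List (W₁.J → ℤ), l.length = r ∧ pullK π B.cls = (l.map (line W₁)).sum := by
  induction r with
  | zero =>
    intro W hW B h
    exact ⟨W, Mor.id W, hW, Dom.id W, [], rfl, by rw [BCls.eq_zero ⟨B, h, rfl⟩, map_zero]; rfl⟩
  | succ r ih =>
    intro W hW B h
    obtain ⟨W₁, π, B₁, e, h1, h2, h3, h4⟩ := exists_pb hW B h
    obtain ⟨W₂, π', h5, h6, l, h7, h8⟩ := ih h1 B₁ h3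
    refine ⟨W₂, π.comp π', h5, h2.comp h6, π'.ρ e :: l, congrArg (· + 1) h7, ?_⟩
    rw [pullK_comp, h4, map_add, h8, pullK_line, List.map_cons, List.sum_cons, add_comm]

theorem mul_mem_FF {a b : ℕ} {x y : K0 X} (hx : x ∈ FF X a) (hy : y ∈ FF X b) :
    x * y ∈ FF X (a + b) := fun W f hW d g hg => by
  rw [map_mul, kact_mul]
  exact hx W f hW d _ (hy W f hW (d + a) g (by rwa [add_assoc]))

theorem one_mem : (1 : K0 X) ∈ FF X 0 := fun W f _ d g hg => by rwa [map_one, kact_one]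

variable (X) in
/-- the classes whose Chern classes lower the dimension -/
def good : AddSubmonoid (K0 X) where
  carrier := {a | ∀ i, cc i a ∈ FF X i}
  zero_mem' := fun i => by
    rw [← coeff_cT, cT_zero, coeff_one]
    split_ifs with h
    · exact h ▸ one_mem
    · exact zero_mem _
  add_mem' := fun {a b} ha hb i => by
    rw [cc_add]
    exact sum_mem fun p hp => mem_antidiagonal.1 hp ▸ mul_mem_FF (ha _) (hb _)

theorem line_good (γ : X.J → ℤ) : line X γ ∈ good X := fun i => by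
  match i with
  | 0 => exact cc_zero (line X γ) ▸ one_mem
  | 1 =>
    rw [cc_one, rk_line, Int.cast_one]
    exact one_sub_line_mem_FF γ
  | i + 2 => exact cc_gt (bCls_line γ) (show 1 < i + 2 by omega) ▸ zero_mem _

theorem neg_line_good (γ : X.J → ℤ) : -line X γ ∈ good X := fun i => by
  induction i with
  | zero => exact cc_zero (-line X γ) ▸ one_mem
  | succ i ih =>
    have h := congrArg (coeff (i + 1)) (cT_neg_mul (line X γ))
    rw [cT_rk1 (bCls_line γ), mul_add, mul_one, ← mul_assoc, map_add, coeff_succ_mul_X, coeff_mul_C,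
      coeff_cT, coeff_cT, coeff_one, if_neg i.succ_ne_zero, add_eq_zero_iff_eq_neg] at h
    exact h ▸ neg_mem (mul_mem_FF ih (one_sub_line_mem_FF γ))

theorem sub_good (l l' : List (X.J → ℤ)) :
    (l.map (line X)).sum - (l'.map (line X)).sum ∈ good X := by
  rw [sub_eq_add_neg]
  refine add_mem (list_sum_mem fun x hx => ?_) ?_
  · obtain ⟨γ, -, rfl⟩ := List.mem_map.1 hx
    exact line_good γ
  induction l' with
  | nil => exact neg_zero (G := K0 X) ▸ zero_mem _
  | cons γ l' ih =>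
    rw [List.map_cons, List.sum_cons, neg_add]
    exact add_mem (neg_line_good γ) ih

end Rk

theorem split (hW : W.Free) (B : Bun W) : ∃ (W₁ : Spc) (π : Mor W₁ W), W₁.Free ∧ Dom π ∧
    ∃ l : List (W₁.J → ℤ), l.length = B.rk ∧ pullK π B.cls = (l.map (line W₁)).sum :=
  Rk.split _ hW B rfl

theorem split_bun (hW : W.Free) {ι : Type} [Fintype ι] (a : ι → K0 W) (r : ι → ℕ)
    (h : ∀ i, BCls (a i) (r i)) : ∃ (W₁ : Spc) (π : Mor W₁ W), W₁.Free ∧ Dom π ∧
      ∀ i, ∃ l : List (W₁.J → ℤ), l.length = r i ∧ pullK π (a i) = (l.map (line W₁)).sum := by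
  classical
  suffices h1 : ∀ s : Finset ι, ∃ (W₁ : Spc) (π : Mor W₁ W), W₁.Free ∧ Dom π ∧ ∀ i ∈ s,
      ∃ l : List (W₁.J → ℤ), l.length = r i ∧ pullK π (a i) = (l.map (line W₁)).sum by
    simpa only [mem_univ, true_imp_iff] using h1 univ
  intro s
  induction s using Finset.induction_on with
  | empty => exact ⟨W, Mor.id W, hW, Dom.id W, fun _ h => absurd h (notMem_empty _)⟩
  | insert i s _ ih =>
    obtain ⟨W₁, π, h1, h2, h3⟩ := ih
    obtain ⟨B, h4, h5⟩ := (h i).pull π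
    obtain ⟨W₂, π', h6, h7, l, h8, h9⟩ := Rk.split _ h1 B h4
    refine ⟨W₂, π.comp π', h6, h2.comp h7, fun j hj => ?_⟩
    rcases mem_insert.1 hj with rfl | hj
    · exact ⟨l, h8, by rw [pullK_comp, ← h5, h9]⟩
    · obtain ⟨l', k1, k2⟩ := h3 j hj
      exact ⟨l'.map π'.ρ, by rw [List.length_map, k1], by rw [pullK_comp, k2, Rk.pull_lines]⟩

theorem split_K (hW : W.Free) {ι : Type} [Fintype ι] (a : ι → K0 W) :
    ∃ (W₁ : Spc) (π : Mor W₁ W), W₁.Free ∧ Dom π ∧ ∀ i, ∃ l l' : List (W₁.J → ℤ),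
      rk W (a i) = (l.length : ℤ) - l'.length ∧
      pullK π (a i) = (l.map (line W₁)).sum - (l'.map (line W₁)).sum := by
  choose B₀ B₁ hB using fun i => K0_induction (a i)
  obtain ⟨W₁, π, h1, h2, h3⟩ := split_bun hW (fun j => (Sum.elim B₀ B₁ j).cls)
    (fun j => (Sum.elim B₀ B₁ j).rk) fun j => ⟨_, rfl, rfl⟩
  refine ⟨W₁, π, h1, h2, fun i => ?_⟩
  obtain ⟨l, k1, k2⟩ := h3 (.inl i)
  obtain ⟨l', k3, k4⟩ := h3 (.inr i)
  refine ⟨l, l', ?_, ?_⟩
  · rw [hB, map_sub, rk_cls, rk_cls, k1, k3]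
    rfl
  · rw [hB, map_sub, ← k2, ← k4]
    rfl

theorem cc_mem_FF (i : ℕ) (a : K0 X) : cc i a ∈ FF X i := by
  refine mem_FF_iff.2 fun W f hW d => ?_
  obtain ⟨W₁, π, h1, h2, h3⟩ := split_K hW fun _ : Unit => pullK f a
  obtain ⟨l, l', -, h4⟩ := h3 ()
  refine h2.low fun y hy => ?_
  have h5 := mem_FF_iff.1 (Rk.sub_good l l' i) W₁ (Mor.id W₁) h1 d y hy
  rwa [pullK_id, ← h4, ← cc_pull, ← cc_pull] at h5

theorem mem_FF_one {a : K0 X} (h : rk X a = 0) : a ∈ FF X 1 := by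
  have h1 := neg_mem (cc_mem_FF 1 a)
  rwa [cc_one, h, Int.cast_zero, zero_sub, neg_neg] at h1

end Vale.Agent.P297Z
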