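import Vale.Agent.P297Z.Ch.KosA
import Vale.Agent.P297Z.K.AG
import Vale.Agent.P297Z.K.AK1
import Vale.Agent.P297Z.Dim.Fib

/-!
# P297: the Euler characteristic of the Koszul complex
-/

set_option linter.all false

open scoped TensorProduct

noncomputable section

namespace Vale.Agent.P297Z.Kos

open Sg GMod Finset

variable {X : Spc} {B : GMod X}

theorem act_im (N : GMod X) (i : ℕ) (g : X.J → ℂˣ) (v : Fin i → B.M) (n : N.M) :
    ((B.ext i).ten N).act g (im X.R i v ⊗ₜ[X.R] n) =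
      im X.R i (fun j => B.act g (v j)) ⊗ₜ[X.R] N.act g n :=
  congrArg (· ⊗ₜ[X.R] N.act g n) ((B.ext_act i g).choose_spec.2 v)

theorem isHom_of {N P : GMod X} {i : ℕ} {F : ((B.ext i).ten N).M →ₗ[X.R] P.M}
    (h : ∀ g v n, F (im X.R i (fun j => B.act g (v j)) ⊗ₜ[X.R] N.act g n) =
      P.act g (F (im X.R i v ⊗ₜ[X.R] n))) : ((B.ext i).ten N).IsHom P F := fun g x =>
  ind_ten (P := fun x : ((B.ext i).ten N).M => F (((B.ext i).ten N).act g x) = P.act g (F x))
    (by simp only [map_zero] : F (((B.ext i).ten N).act g 0) = P.act g (F 0))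
    (fun (x y : ((B.ext i).ten N).M) hx hy => (by simp only [map_add, hx, hy] :
      F (((B.ext i).ten N).act g (x + y)) = P.act g (F (x + y))))
    (fun v n => (congrArg F (act_im N i g v n)).trans (h g v n)) x

theorem isHom_ct {σ : B.M →ₗ[X.R] X.R} (hσ : B.IsHom (one X) σ) (N : GMod X) (i : ℕ) :
    ((B.ext (i + 1)).ten N).IsHom ((B.ext i).ten N) (ct N.M i σ) :=
  isHom_of (P := (B.ext i).ten N) fun g v n => by
    refine (ct_tmul i σ _ _).trans (Eq.trans ?_ (congrArg _ (ct_tmul i σ v n)).symm)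
    refine Eq.trans ?_ (map_sum (((B.ext i).ten N).act g) _ _).symm
    refine sum_congr rfl fun j _ => ?_
    refine Eq.trans ?_ (map_zsmul (((B.ext i).ten N).act g) _ _).symm
    refine congrArg _ (Eq.trans ?_ (((B.ext i).ten N).act_smul g _ _).symm)
    exact congrArg₂ _ (hσ g (v j)) (act_im N i g (j.removeNth v) n).symm

theorem isHom_u0 (B N : GMod X) : ((B.ext 0).ten N).IsHom N (u0 X.R B.M N.M).toLinearMap :=
  isHom_of fun g v n => (u0_tmul _ _).trans (congrArg _ (u0_tmul v n).symm)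

theorem cls_sub_congr {M : GMod X} {S S' : Submodule X.R M.M} (e : S = S') (h : M.Stab S)
    (h' : M.Stab S') : cls (M.sub S h) = cls (M.sub S' h') := by subst e; rfl

theorem cls_quo_congr {M : GMod X} {S S' : Submodule X.R M.M} (e : S = S') (h : M.Stab S)
    (h' : M.Stab S') : cls (M.quo S h) = cls (M.quo S' h') := by subst e; rfl

theorem cls_coker_comp {A B C : GMod X} {f : A.M →ₗ[X.R] B.M} (hf : A.IsHom B f)
    (u : B.M ≃ₗ[X.R] C.M) (hu : B.IsHom C u.toLinearMap) :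
    cls hf.cokerM = cls (hu.comp hf).cokerM := by
  have h1 := cls_sub_cls (hu.comp hf)
  rw [cls_sub_congr (LinearEquiv.ker_comp _ _) _ hf.stab_ker, ← cls_equiv u hu,
    cls_sub_cls hf] at h1
  exact sub_right_injective h1

/-- the alternating sum along a complex -/
theorem alt_mem (M : ℕ → GMod X) (d : ∀ i, (M (i + 1)).M →ₗ[X.R] (M i).M)
    (hd : ∀ i, (M (i + 1)).IsHom (M i) (d i)) (h2 : ∀ i a, d i (d (i + 1) a) = 0) (n : ℕ)
    (hn : ∀ z : X.Pt, ZeroAt z.1 (M (n + 1)).M) {A : AddSubgroup (G X)}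
    (hA : ∀ j, cls ((hd (j + 1)).codRestrict (hd j).stab_ker (h2 j)).cokerM ∈ A) :
    ∑ j ∈ range (n + 1), (-1 : ℤ) ^ j • cls (M j) - cls (hd 0).cokerM ∈ A := by
  have key : ∀ n, ∑ j ∈ range (n + 1 + 1), (-1 : ℤ) ^ j • cls (M j) - cls (hd 0).cokerM
      + (-1 : ℤ) ^ n • cls (hd n).kerM ∈ A := fun n => by
    induction n with
    | zero =>
      rw [sum_range_succ, sum_range_one, eq_add_of_sub_eq (cls_sub_cls (hd 0))]
      convert A.zero_mem using 1
      simp
    | succ n ih =>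
      have h1 := (cls_sub_cls ((hd (n + 1)).codRestrict (hd n).stab_ker (h2 n))).trans
        (congrArg (· - _) (cls_sub_congr (LinearMap.ker_codRestrict _ _ _) _ (hd (n + 1)).stab_ker))
      rw [sum_range_succ, eq_add_of_sub_eq h1]
      convert A.sub_mem ih (A.zsmul_mem (hA n) ((-1) ^ n)) using 1
      simp only [pow_succ, mul_neg, mul_one, neg_neg, neg_smul, smul_add, smul_sub]
      abel
  have h1 := key n
  rwa [sum_range_succ, cls_zero hn, cls_zero (M := (hd n).kerM) fun z =>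
    .of_injAt (.of_inj (Submodule.injective_subtype _)) (hn z), smul_zero, smul_zero, add_zero,
    add_zero] at h1

theorem ten_kill {R P Q : Type} [CommRing R] [AddCommGroup P] [Module R P] [AddCommGroup Q]
    [Module R Q] {t : R} (h : (∀ p : P, t • p = 0) ∨ ∀ q : Q, t • q = 0) (x : P ⊗[R] Q) :
    t • x = 0 := by
  induction x with
  | zero => exact smul_zero t
  | add x y hx hy => rw [smul_add, hx, hy, add_zero]
  | tmul p q =>
    rcases h with h | h
    · rw [TensorProduct.smul_tmul', h, TensorProduct.zero_tmul]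
    · rw [← TensorProduct.tmul_smul, h, TensorProduct.tmul_zero]

theorem ct_wd_ker {A C N : Type} [CommRing A] [AddCommGroup C] [Module A C] [AddCommGroup N]
    [Module A N] (i : ℕ) (φ : C →ₗ[A] A) (c : C) {x : T A C N (i + 1)} (h : ct N i φ x = 0) :
    ct N (i + 1) φ (wd N (i + 1) c x) = φ c • x := by rw [ct_wd, h, map_zero, sub_zero]

theorem kos_sum {r : ℕ} (hB : B.IsBun r) (σ : B.M →ₗ[X.R] X.R) (hσ : B.IsHom (one X) σ)
    (N : GMod X) (hs : N.Stab (LinearMap.range σ • ⊤)) :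
    ∑ j ∈ range (r + 1), (-1 : ℤ) ^ j • cls ((B.ext j).ten N)
      - cls (N.quo (LinearMap.range σ • ⊤) hs) ∈
      AddSubgroup.closure {x | ∃ H : GMod X, (∀ b (h : H.M), σ b • h = 0) ∧
        (∀ r : X.R, (∀ n : N.M, r • n = 0) → ∀ h : H.M, r • h = 0) ∧
        (∀ z : X.Pt, KReg z.1 σ N.M r → ZeroAt z.1 H.M) ∧ x = cls H} := by
  have hd := isHom_ct hσ N
  rw [← (cls_coker_comp (hd 0) _ (isHom_u0 B N)).trans (cls_quo_congr (range_ct0 σ) _ hs)]
  refine alt_mem (fun j => (B.ext j).ten N) _ hd (fun i => ct_self i σ) r (fun z x => ?_)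
    fun j => AddSubgroup.subset_closure ⟨_, fun b h => ?_, fun t ht h => ?_, fun z hz h => ?_, rfl⟩
  · have h1 := hB.ext (r + 1) z
    rw [Nat.choose_succ_self] at h1
    obtain ⟨t, h2, h3⟩ := (freeAt_zero_iff.1 h1).unif
    exact ⟨t, h2, ten_kill (.inl h3) x⟩
  · obtain ⟨w, rfl⟩ := Submodule.Quotient.mk_surjective _ h
    refine (Submodule.Quotient.mk_eq_zero _).2 ⟨wd N.M (j + 1) b w.1, Subtype.ext ?_⟩
    exact ct_wd_ker j σ b w.2
  · obtain ⟨w, rfl⟩ := Submodule.Quotient.mk_surjective _ h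
    exact congrArg Submodule.Quotient.mk (Subtype.ext (ten_kill (.inr ht) w.1))
  · obtain ⟨w, rfl⟩ := Submodule.Quotient.mk_surjective _ h
    obtain ⟨t, a, h2, h3⟩ := exAt_ct hz j w.1 w.2
    exact ⟨t, h2, (Submodule.Quotient.mk_eq_zero _).2 ⟨a, Subtype.ext h3⟩⟩

/-- a module on the zero locus that vanishes at one of its points -/
theorem mem_Fl {σ : B.M →ₗ[X.R] X.R} {p : Ideal X.R} (hp : p.IsPrime)
    (h2 : ∀ z : X.Pt, (∀ b, z.1 (σ b) = 0) → ∀ r ∈ p, z.1 r = 0) {z : X.Pt}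
    (hz : ∀ r ∈ p, z.1 r = 0) {d : ℕ} (hd : ringKrullDim (X.R ⧸ p) < (d + 1 : ℕ)) (H : GMod X)
    (h1 : ∀ b (h : H.M), σ b • h = 0) (h0 : ZeroAt z.1 H.M) : cls H ∈ Fl X d := by
  refine cls_mem_of_prime H fun q hq γ k1 k2 ⟨y, k3⟩ => AddSubgroup.subset_closure ⟨_, ?_, rfl⟩
  have e : Module.annihilator X.R (((one X).quo q hq).shift γ).M = q := Ideal.annihilator_quotient
  have hlt : p < q := by
    refine lt_of_le_of_ne (fun r hr => ?_) ?_
    · obtain ⟨f, hf, hy⟩ := y.2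
      have k4 : r * f ∈ q.radical := Dim.mem_radical (k := ℂ) fun w hw => by
        by_cases k5 : w f = 0
        · rw [map_mul, k5, mul_zero]
        · rw [map_mul, h2 ⟨w, f, hf, k5⟩ (fun b => hw _ (k2 (Module.mem_annihilator.2 (h1 b))))
            r hr, zero_mul]
      exact (k1.mem_or_mem (k1.radical ▸ k4)).resolve_right fun k5 => hy (k3 f k5)
    · rintro rfl
      obtain ⟨r, k4, k5⟩ := zeroAt_iff_ann.1 h0
      exact k5 (hz r (k2 k4))
  rw [e, Dim.dim_quot_lt_iff' (k := ℂ)]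
  intro q' k4 k5
  have k6 := (Dim.dim_quot_lt_iff' (k := ℂ) p (d + 1)).1 hd p hp le_rfl
  have k7 := Dim.td_lt (k := ℂ) (hlt.trans_le k5)
  omega

end Vale.Agent.P297Z.Kos
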