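import Vale.Agent.P297Z.Ch.Wh
import Vale.Agent.P297Z.K.AK3

/-!
# P297: the exterior powers on `K0`
-/

open scoped TensorProduct

noncomputable section

namespace Vale.Agent.P297Z

open PowerSeries Finset GMod

variable {W X : Spc}

namespace Wh

theorem kc_ext_zero (M : GMod X) : kc (M.ext 0) 1 = 1 :=
  (kc_qis (qis_of_equiv (A := M.ext 0) (B := one X) (exteriorPower.zeroEquiv X.R M.M)
    (isHom_ext fun g v => (exteriorPower.zeroEquiv_ιMulti (R := X.R) _).trans
      ((map_one (X.act g)).symm.trans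
        (congrArg (X.act g) (exteriorPower.zeroEquiv_ιMulti v).symm)))) 1).trans kc_one

theorem kc_ext_one (M : GMod X) (r : ℕ) : kc (M.ext 1) r = kc M r :=
  kc_qis (qis_of_equiv (A := M.ext 1) (B := M) (exteriorPower.oneEquiv X.R M.M)
    (isHom_ext fun g v => (exteriorPower.oneEquiv_ιMulti _).trans
      (congrArg (M.act g) (exteriorPower.oneEquiv_ιMulti v).symm))) r

theorem exists_lam (X : Spc) : ∃ ψ : K0 X →+ Additive (K0 X)⟦X⟧ˣ, ∀ (B : Bun X) (i : ℕ),
    coeff i ((ψ B.cls).toMul : (K0 X)⟦X⟧) = kc (B.M.ext i) (B.rk.choose i) := by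
  have hu : ∀ B : Bun X, IsUnit (PowerSeries.mk fun i => kc (B.M.ext i) (B.rk.choose i)) :=
    fun B => PowerSeries.isUnit_iff_constantCoeff.2 (by
      rw [← coeff_zero_eq_constantCoeff_apply, coeff_mk, Nat.choose_zero_right, kc_ext_zero]
      exact isUnit_one)
  obtain ⟨ψ, hψ⟩ := K0_lift (fun B : Bun X => Additive.ofMul (hu B).unit) fun A B C f g h hr => by
    rw [← ofMul_mul]
    refine congrArg _ (Units.ext (PowerSeries.ext fun n => ?_))
    rw [Units.val_mul, IsUnit.unit_spec, IsUnit.unit_spec, IsUnit.unit_spec, coeff_mul, coeff_mk,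
      hr, kc_ext_ses h A.free C.free]
    simp only [coeff_mk]
  exact ⟨ψ, fun B i => by rw [hψ, toMul_ofMul, IsUnit.unit_spec, coeff_mk]⟩

theorem mul_ext {S : Type*} [CommRing S] {F G : K0 X → S} (hF : ∀ a b, F (a + b) = F a * F b)
    (hG : ∀ a b, G (a + b) = G a * G b) (hu : ∀ a, IsUnit (G a))
    (h : ∀ B : Bun X, F B.cls = G B.cls) (a : K0 X) : F a = G a := by
  obtain ⟨B₀, B₁, rfl⟩ := K0_induction a
  refine (hu B₁.cls).mul_right_cancel ?_
  rw [← hG, ← h, ← hF, sub_add_cancel, h]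

theorem qis_pull_ext (f : Mor W X) {M : GMod X} {r : ℕ} (h : M.IsBun r) (n : ℕ) :
    ∃ u, Qis (f.pull (M.ext n)) ((f.pull M).ext n) u := by
  have e : ∀ [DecidableEq (Fin n)] (v : Fin n → M.M) (i : Fin n) (x : M.M),
      (fun j => AK.pu f M (Function.update v i x j)) =
        Function.update (fun j => AK.pu f M (v j)) i (AK.pu f M x) := fun v i x =>
    funext fun j => Function.apply_update (fun _ => AK.pu f M) v i x j
  let F : M.M [⋀^Fin n]→ₗ[X.R] f.Res ((f.pull M).ext n) :=
    { toFun := fun v => exteriorPower.ιMulti W.R n fun i => AK.pu f M (v i)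
      map_update_add' := fun v i x y => by
        rw [e, e, e, map_add]
        exact (exteriorPower.ιMulti W.R n).map_update_add _ i _ _
      map_update_smul' := fun v i r x => by
        rw [e, e, AK.pu_smul]
        exact (exteriorPower.ιMulti W.R n).map_update_smul _ i _ _
      map_eq_zero_of_eq' := fun v i j h hij =>
        (exteriorPower.ιMulti W.R n).map_eq_zero_of_eq _ (congrArg (AK.pu f M) h) hij }
  obtain ⟨L, hL⟩ := AK.exists_plift f (M.ext n) (V := ((f.pull M).ext n).M)
    (exteriorPower.alternatingMapLinearEquiv F).toAddMonoidHom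
    fun s x => (exteriorPower.alternatingMapLinearEquiv F).map_smul s x
  have h1 : ∀ v, L (AK.pu f (M.ext n) (exteriorPower.ιMulti X.R n v)) =
      exteriorPower.ιMulti W.R n fun i => AK.pu f M (v i) := fun v =>
    (hL _).trans (exteriorPower.alternatingMapLinearEquiv_apply_ιMulti F v)
  have sp : Submodule.span W.R (Set.range (AK.pu f M)) = ⊤ := eq_top_iff.2 fun m _ =>
    AK.pu_ind (P := fun m => m ∈ Submodule.span W.R (Set.range (AK.pu f M))) (zero_mem _)
      (fun x => Submodule.subset_span ⟨x, rfl⟩) (fun s _ => Submodule.smul_mem _ s)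
      (fun _ _ => add_mem) m
  have hs : Function.Surjective L := LinearMap.range_eq_top.1 (eq_top_iff.2 (by
    refine (exteriorPower.ιMulti_span_of_span W.R n _ sp).ge.trans (Submodule.span_le.2 ?_)
    rintro _ ⟨v, hv, rfl⟩
    choose w hw using fun i => hv ⟨i, rfl⟩
    exact ⟨_, (h1 w).trans (congrArg _ (funext hw))⟩))
  refine ⟨L, AK.isHom_pu fun t x => ?_, fun z =>
    isoAt_of_surjAt ((h.ext n).pull f z) ((h.pull f).ext n z) (.of_surj hs)⟩
  induction x using GMod.ext_ind with
  | h1 v =>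
    rw [ext_act_ι, h1, h1, ext_act_ι]
    exact congrArg _ (funext fun i => (AK.pu_act f t _).symm)
  | h0 => simp only [map_zero]
  | ha x y hx hy => simp only [map_add, hx, hy]
  | hs r x hx => rw [act_smul, AK.pu_smul, AK.pu_smul, map_smul, map_smul, act_smul, hx, f.act_map]

theorem qis_ext_shift (M : GMod X) (γ : X.J → ℤ) (n : ℕ) :
    Qis ((M.shift γ).ext n) ((M.ext n).shift (n • γ)) LinearMap.id :=
  ⟨isHom_ext fun g v => by
    have h := (exteriorPower.ιMulti X.R n (M := M.M)).map_smul_univ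
      (fun _ => algebraMap ℂ X.R (chr (-γ) g)) fun i => M.act g (v i)
    simp only [algebraMap_smul, prod_const, card_univ, Fintype.card_fin] at h
    refine h.trans ?_
    rw [← map_pow, ← chr_nsmul, smul_neg]
    exact congrArg (fun x : (M.ext n).M => chr (-(n • γ)) g • x) (ext_act_ι M n g v).symm,
    fun _ => IsoAt.id⟩

end Wh

theorem lam_cls (B : Bun X) (i : ℕ) : lam i B.cls = kc (B.M.ext i) (B.rk.choose i) := by
  unfold lam lamT
  rw [dif_pos (Wh.exists_lam X)]
  exact (Wh.exists_lam X).choose_spec B i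

theorem lam_kc {M : GMod X} {r : ℕ} (h : M.IsBun r) (i : ℕ) :
    lam i (kc M r) = kc (M.ext i) (r.choose i) := by rw [kc_eq h, lam_cls]

theorem coeff_lamS (i : ℕ) (a : K0 X) : coeff i (lamS a) = lam i a := rfl

theorem lamS_zero : lamS (0 : K0 X) = 1 := by rw [lamS, map_zero]; rfl

theorem lamS_add (a b : K0 X) : lamS (a + b) = lamS a * lamS b := by
  rw [lamS, map_add]; rfl

theorem lamS_neg_mul (a : K0 X) : lamS (-a) * lamS a = 1 := by
  rw [← lamS_add, neg_add_cancel, lamS_zero]

theorem isUnit_lamS (a : K0 X) : IsUnit (lamS a) := Units.isUnit _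

theorem lamS_sum {ι : Type*} (s : Finset ι) (a : ι → K0 X) :
    lamS (∑ i ∈ s, a i) = ∏ i ∈ s, lamS (a i) := by
  classical
  induction s using Finset.induction_on with
  | empty => exact lamS_zero
  | insert i s hi ih => rw [sum_insert hi, prod_insert hi, lamS_add, ih]

theorem lamS_list (l : List (K0 X)) : lamS l.sum = (l.map lamS).prod := by
  induction l with
  | nil => exact lamS_zero
  | cons a l ih => rw [List.sum_cons, List.map_cons, List.prod_cons, lamS_add, ih]

theorem lamS_nsmul (n : ℕ) (a : K0 X) : lamS (n • a) = lamS a ^ n := by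
  induction n with
  | zero => rw [zero_nsmul, pow_zero, lamS_zero]
  | succ n ih => rw [succ_nsmul, pow_succ, lamS_add, ih]

theorem lam_add (n : ℕ) (a b : K0 X) :
    lam n (a + b) = ∑ p ∈ antidiagonal n, lam p.1 a * lam p.2 b := by
  rw [← coeff_lamS, lamS_add, coeff_mul]; rfl

theorem lam_zero (a : K0 X) : lam 0 a = 1 :=
  Wh.mul_ext (F := lam 0) (G := fun _ => 1) (fun a b => by rw [lam_add]; simp)
    (fun _ _ => (mul_one _).symm) (fun _ => isUnit_one)
    (fun B => by rw [lam_cls, Nat.choose_zero_right, Wh.kc_ext_zero]) a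

theorem lam_one (a : K0 X) : lam 1 a = a := by
  have h : ∀ a b : K0 X, lam 1 (a + b) = lam 1 a + lam 1 b := fun a b => by
    rw [lam_add, Nat.sum_antidiagonal_succ, Nat.antidiagonal_zero, sum_singleton, lam_zero,
      lam_zero, one_mul, mul_one, add_comm]
  exact DFunLike.congr_fun (K0_ext (ψ := AddMonoidHom.mk' (lam 1) h) (ψ' := AddMonoidHom.id _)
    fun B => by
      change lam 1 B.cls = B.cls
      rw [lam_cls, Nat.choose_one_right, Wh.kc_ext_one, kc_bun]) a

theorem bCls_kc {M : GMod X} {r : ℕ} (h : M.IsBun r) : BCls (kc M r) r :=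
  ⟨⟨M, r, h⟩, rfl, (kc_eq h).symm⟩

theorem BCls.exists {a : K0 X} {r : ℕ} (h : BCls a r) : ∃ M : GMod X, M.IsBun r ∧ a = kc M r := by
  obtain ⟨B, rfl, rfl⟩ := h
  exact ⟨B.M, B.free, (kc_bun B).symm⟩

theorem BCls.lam {a : K0 X} {r : ℕ} (h : BCls a r) (i : ℕ) : BCls (lam i a) (r.choose i) := by
  obtain ⟨M, k, rfl⟩ := h.exists
  exact lam_kc k i ▸ bCls_kc (k.ext i)

theorem BCls.rk {a : K0 X} {r : ℕ} (h : BCls a r) : rk X a = r := by
  obtain ⟨M, k, rfl⟩ := h.exists
  exact rk_kc k

theorem BCls.add {a b : K0 X} {r s : ℕ} (h : BCls a r) (h' : BCls b s) : BCls (a + b) (r + s) := by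
  obtain ⟨M, k, rfl⟩ := h.exists
  obtain ⟨N, k', rfl⟩ := h'.exists
  exact kc_prod k k' ▸ bCls_kc (k.prod k')

theorem BCls.mul {a b : K0 X} {r s : ℕ} (h : BCls a r) (h' : BCls b s) : BCls (a * b) (r * s) := by
  obtain ⟨M, k, rfl⟩ := h.exists
  obtain ⟨N, k', rfl⟩ := h'.exists
  exact kc_ten k k' ▸ bCls_kc (k.ten k')

theorem BCls.pull {a : K0 X} {r : ℕ} (h : BCls a r) (f : Mor W X) : BCls (pullK f a) r := by
  obtain ⟨M, k, rfl⟩ := h.exists
  exact pullK_kc f k ▸ bCls_kc (k.pull f)

theorem BCls.dual {a : K0 X} {r : ℕ} (h : BCls a r) : BCls (dualK X a) r := by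
  obtain ⟨M, k, rfl⟩ := h.exists
  exact dualK_kc k ▸ bCls_kc k.dual

theorem BCls.eq_zero {a : K0 X} (h : BCls a 0) : a = 0 := by
  obtain ⟨M, k, rfl⟩ := h.exists
  exact kc_zero fun z => freeAt_zero_iff.1 (k z)

theorem BCls.mul_dual {a : K0 X} (h : BCls a 1) : a * dualK X a = 1 := by
  obtain ⟨M, k, rfl⟩ := h.exists
  exact kc_mul_dual k

theorem bCls_line (γ : X.J → ℤ) : BCls (line X γ) 1 := bCls_kc ((isBun_one X).shift γ)

theorem bCls_one : BCls (1 : K0 X) 1 := line_zero (X := X) ▸ bCls_line 0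

theorem bCls_zero : BCls (0 : K0 X) 0 := ⟨AK.bzero X, rfl, AK.cls_bzero⟩

theorem bCls_nat (n : ℕ) : BCls (n : K0 X) n := by
  induction n with
  | zero => exact Nat.cast_zero (R := K0 X) ▸ bCls_zero
  | succ n ih => exact Nat.cast_succ (R := K0 X) n ▸ ih.add bCls_one

theorem bCls_sum {ι : Type*} (s : Finset ι) {a : ι → K0 X} {r : ι → ℕ}
    (h : ∀ i ∈ s, BCls (a i) (r i)) : BCls (∑ i ∈ s, a i) (∑ i ∈ s, r i) := by
  classical
  induction s using Finset.induction_on with
  | empty => exact bCls_zero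
  | insert i s hi ih =>
    rw [sum_insert hi, sum_insert hi]
    exact (h i (mem_insert_self _ _)).add (ih fun j hj => h j (mem_insert_of_mem hj))

theorem lam_gt {a : K0 X} {r i : ℕ} (h : BCls a r) (hi : r < i) : lam i a = 0 :=
  BCls.eq_zero (Nat.choose_eq_zero_of_lt hi ▸ h.lam i)

theorem lamS_rk1 {l : K0 X} (h : BCls l 1) : lamS l = 1 + C l * PowerSeries.X := by
  ext i
  rw [coeff_lamS]
  rcases i with _ | _ | i
  · simp [lam_zero]
  · simp [lam_one, coeff_one]
  · simp [lam_gt h, coeff_one]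

theorem lamS_pull (f : Mor W X) (a : K0 X) : map (pullK f) (lamS a) = lamS (pullK f a) :=
  Wh.mul_ext (F := fun a => map (pullK f) (lamS a)) (G := fun a => lamS (pullK f a))
    (fun a b => by rw [lamS_add, map_mul]) (fun a b => by rw [map_add, lamS_add])
    (fun _ => isUnit_lamS _) (fun B => PowerSeries.ext fun i => by
      obtain ⟨u, hu⟩ := Wh.qis_pull_ext f B.free i
      rw [coeff_map, coeff_lamS, coeff_lamS, lam_cls, pullK_cls, lam_kc (B.free.pull f),
        pullK_kc f (B.free.ext i), kc_qis hu]) a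

theorem lam_pull (f : Mor W X) (i : ℕ) (a : K0 X) : pullK f (lam i a) = lam i (pullK f a) := by
  rw [← coeff_lamS, ← coeff_lamS, ← lamS_pull, coeff_map]

theorem lamS_line_mul (γ : X.J → ℤ) (a : K0 X) :
    lamS (line X γ * a) = rescale (line X γ) (lamS a) :=
  Wh.mul_ext (F := fun a => lamS (line X γ * a)) (G := fun a => rescale (line X γ) (lamS a))
    (fun a b => by rw [mul_add, lamS_add]) (fun a b => by rw [lamS_add, map_mul])
    (fun a => (isUnit_lamS a).map _) (fun B => PowerSeries.ext fun i => by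
      rw [coeff_rescale, coeff_lamS, coeff_lamS, lam_cls, ← kc_bun, ← kc_shift B.free,
        lam_kc (B.free.shift γ), kc_qis (Wh.qis_ext_shift B.M γ i), kc_shift (B.free.ext i),
        line_nsmul]) a

theorem lam_line_mul (γ : X.J → ℤ) (i : ℕ) (a : K0 X) :
    lam i (line X γ * a) = line X γ ^ i * lam i a := by
  rw [← coeff_lamS, lamS_line_mul, coeff_rescale, coeff_lamS]

theorem rk_lam (i : ℕ) (a : K0 X) : rk X (lam i a) = Ring.choose (rk X a) i := by
  have h := Wh.mul_ext (F := fun a => map (rk X) (lamS a))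
    (G := fun a => binomialSeries ℤ (rk X a)) (fun a b => by rw [lamS_add, map_mul])
    (fun a b => by rw [map_add, binomialSeries_add])
    (fun a => IsUnit.of_mul_eq_one (binomialSeries ℤ (-rk X a)) (by
      rw [← binomialSeries_add, add_neg_cancel, binomialSeries_zero]))
    (fun B => PowerSeries.ext fun i => by
      rw [coeff_map, coeff_lamS, lam_cls, rk_kc (B.free.ext i), binomialSeries_coeff, rk_cls,
        Ring.choose_natCast, smul_eq_mul, mul_one]) a
  have h' := congrArg (coeff i) h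
  rwa [coeff_map, binomialSeries_coeff, smul_eq_mul, mul_one] at h'

theorem lam_succ_add {l : K0 X} (hl : BCls l 1) (b : K0 X) (i : ℕ) :
    lam (i + 1) (b + l) = lam (i + 1) b + lam i b * l := by
  rw [← coeff_lamS, lamS_add, lamS_rk1 hl, mul_add, mul_one, map_add, ← mul_assoc,
    coeff_succ_mul_X, coeff_mul_C, coeff_lamS, coeff_lamS]

theorem lam_eval_add {b l : K0 X} {r : ℕ} (hb : BCls b r) (hl : BCls l 1) (x : K0 X) :
    ∑ i ∈ range (r + 2), lam i (b + l) * x ^ i =
      (∑ i ∈ range (r + 1), lam i b * x ^ i) * (1 + l * x) := by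
  have h : ∑ i ∈ range (r + 2), lam i b * x ^ i = ∑ i ∈ range (r + 1), lam i b * x ^ i := by
    rw [sum_range_succ, lam_gt hb r.lt_succ_self, zero_mul, add_zero]
  rw [mul_add, mul_one, sum_mul, ← h, sum_range_succ', sum_range_succ' (fun i => lam i b * x ^ i),
    lam_zero, lam_zero, add_right_comm, ← sum_add_distrib]
  refine congrArg (· + _) (sum_congr rfl fun i _ => ?_)
  rw [lam_succ_add hl]
  ring

/-- a bundle with a line bundle quotient -/
theorem lam_alt_of_add {a b l l' : K0 X} {r : ℕ} (hb : BCls b r) (hl : BCls l 1) (h1 : l * l' = 1)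
    (h : a = b + l) : ∑ i ∈ range (r + 2), (-1) ^ i * lam i a * l' ^ i = 0 := by
  have k := lam_eval_add hb hl (-l')
  rw [mul_neg, h1, add_neg_cancel, mul_zero, ← h] at k
  rw [← k]
  exact sum_congr rfl fun i _ => by rw [neg_pow l']; ring

theorem lam_eval_sum {ι : Type*} (s : Finset ι) {l : ι → K0 X} (h : ∀ i ∈ s, BCls (l i) 1)
    (x : K0 X) : ∑ i ∈ range (s.card + 1), lam i (∑ j ∈ s, l j) * x ^ i =
      ∏ j ∈ s, (1 + l j * x) := by
  classical
  induction s using Finset.induction_on with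
  | empty => simp [lam_zero]
  | insert j s hj ih =>
    have h' := fun i hi => h i (mem_insert_of_mem hi)
    have hb := bCls_sum s h'
    rw [sum_const, smul_eq_mul, mul_one] at hb
    rw [sum_insert hj, prod_insert hj, card_insert_of_notMem hj, add_comm (l j),
      lam_eval_add hb (h j (mem_insert_self _ _)), ih h', mul_comm]

theorem prod_one_sub_line {ι : Type} (s : Finset ι) (hs : s.Nonempty) (y : ι → X.R)
    (d : ι → X.J → ℤ)
    (hy : ∀ i ∈ s, y i ∈ X.wt (d i)) (h0 : ∀ z : X.Pt, ∃ i ∈ s, z.1 (y i) ≠ 0) :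
    ∏ i ∈ s, (1 - line X (-d i)) = 0 := by
  classical
  obtain ⟨r, hr⟩ : ∃ r, s.card = r + 1 := Nat.exists_eq_succ_of_ne_zero hs.card_ne_zero
  let F : GMod X := pi fun i : s => (one X).shift (-d i)
  let u : F.M →ₗ[X.R] (one X).M := Fintype.linearCombination X.R fun i : s => y i
  have hu : F.IsHom (one X) u := fun g (v : s → X.R) => by
    change ∑ i : s, (chr (- -d i) g • X.act g (v i)) * y i = X.act g (∑ i : s, v i * y i)
    rw [map_sum]
    refine sum_congr rfl fun i _ => ?_
    rw [map_mul, Spc.mem_wt.1 (hy i i.2) g, neg_neg, smul_mul_assoc, mul_smul_comm]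
  have hb := fun i : s => (isBun_one X).shift (-d i)
  have e : ∑ _i : s, 1 = r + 1 := by simp [hr]
  have q := hu.ses_ker fun z (c : X.R) => by
    obtain ⟨i, hi, h⟩ := h0 z
    refine ⟨y i, (Pi.single ⟨i, hi⟩ c : s → X.R), h, ?_⟩
    exact (Fintype.linearCombination_apply_single X.R (fun i : s => y i) ⟨i, hi⟩ c).trans
      (mul_comm c (y i))
  have hK := q.isBun_left (e ▸ isBun_pi hb) (isBun_one X)
  have k := kc_ses q hK (isBun_one X)
  rw [← e, kc_pi hb, kc_one] at k
  have k1 := lam_eval_add (bCls_kc hK) bCls_one (-1)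
  have k2 := lam_eval_sum (univ : Finset s) (fun i _ => bCls_line (-d i)) (-1)
  rw [card_univ, Fintype.card_coe, hr] at k2
  rw [← k, one_mul, add_neg_cancel, mul_zero] at k1
  rw [← prod_coe_sort, ← k1]
  refine Eq.trans (prod_congr rfl fun i _ => ?_) k2.symm
  rw [mul_neg_one, sub_eq_add_neg]

end Vale.Agent.P297Z
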