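import Vale.Agent.P297Z.Ch.Cc
import Vale.Agent.P297Z.K.AP
import Vale.Agent.P297Z.K.Prj
import Vale.Agent.P297Z.K.PartT

/-!
# P297: the parts of a pull-back to a projective bundle
-/

set_option linter.all false

noncomputable section

namespace Vale.Agent.P297Z

open Finset GMod

namespace AdjX

/-! ### counting -/

section count

variable {X : Spc}

theorem sig_zero' (k : ℕ) : sig k (0 : K0 X) = PowerSeries.coeff k (1 : PowerSeries (K0 X)) := by
  unfold sig
  rw [if_pos (Int.natCast_nonneg k), Int.toNat_natCast, neg_zero, ← coeff_lamS, lamS_zero,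
    PowerSeries.coeff_one]
  split_ifs with h
  · rw [h, pow_zero, one_mul]
  · rw [mul_zero]

theorem sig_ne {k : ℤ} (hk : k ≠ 0) : sig k (0 : K0 X) = 0 := by
  rcases lt_or_ge k 0 with h | h
  · exact sig_neg h _
  · obtain ⟨n, rfl⟩ := Int.eq_ofNat_of_zero_le h
    rw [sig_zero', PowerSeries.coeff_one, if_neg (by omega)]

/-- the series of the symmetric powers -/
def sS (a : K0 X) : PowerSeries (K0 X) := PowerSeries.mk fun n => sig n a

theorem geo (L : K0 X) : (1 - PowerSeries.C L * PowerSeries.X) *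
    PowerSeries.mk (fun n => L ^ n) = 1 := by
  ext n
  rw [sub_mul, one_mul, mul_assoc, map_sub, PowerSeries.coeff_C_mul, PowerSeries.coeff_mk]
  cases n with
  | zero => simp
  | succ n =>
    rw [PowerSeries.coeff_succ_X_mul, PowerSeries.coeff_mk, PowerSeries.coeff_one,
      if_neg (by omega), pow_succ', sub_self]

theorem sS_add_line (γ : X.J → ℤ) (a : K0 X) :
    sS (a + line X γ) = PowerSeries.mk (fun n => line X γ ^ n) * sS a := by
  have h : (1 - PowerSeries.C (line X γ) * PowerSeries.X) * sS (a + line X γ) = sS a := by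
    ext n
    rw [sub_mul, one_mul, mul_assoc, map_sub, PowerSeries.coeff_C_mul, sS, sS,
      PowerSeries.coeff_mk, PowerSeries.coeff_mk, ← sig_add_line γ a n]
    cases n with
    | zero =>
      rw [PowerSeries.coeff_zero_X_mul, sig_neg (k := ((0 : ℕ) : ℤ) - 1) (by norm_num)]
    | succ n =>
      rw [PowerSeries.coeff_succ_X_mul, PowerSeries.coeff_mk]
      congr 3
      push_cast
      ring
  rw [← h, ← mul_assoc, mul_comm (PowerSeries.mk _), geo, one_mul]

theorem sS_sum {ι : Type} (s : Finset ι) (γ : ι → X.J → ℤ) :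
    sS (∑ i ∈ s, line X (γ i)) = ∏ i ∈ s, PowerSeries.mk fun n => line X (γ i) ^ n := by
  classical
  induction s using Finset.induction_on with
  | empty =>
    ext n
    rw [sum_empty, prod_empty, sS, PowerSeries.coeff_mk, sig_zero']
  | insert a s ha ih => rw [sum_insert ha, prod_insert ha, add_comm, sS_add_line, ih]

theorem line_sum {ι : Type} (s : Finset ι) (γ : ι → X.J → ℤ) :
    line X (∑ i ∈ s, γ i) = ∏ i ∈ s, line X (γ i) := by
  classical
  induction s using Finset.induction_on with
  | empty => rw [sum_empty, prod_empty, line_zero]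
  | insert a s ha ih => rw [sum_insert ha, prod_insert ha, line_add, ih]

variable (ι : Type) [Fintype ι]

open Classical in
/-- the exponents of degree `k` -/
def Tk (k : ℤ) : Finset (ι →₀ ℕ) := if 0 ≤ k then finsuppAntidiag univ k.toNat else ∅

variable {ι}

/-- the degree -/
def dg (α : ι →₀ ℕ) : ℤ := ∑ i, (α i : ℤ)

theorem mem_Tk {k : ℤ} {α : ι →₀ ℕ} : α ∈ Tk ι k ↔ dg α = k := by
  classical
  have h : dg α = ((∑ i, α i : ℕ) : ℤ) := by
    unfold dg
    push_cast
    rfl
  unfold Tk
  rw [h]
  split_ifs with hk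
  · rw [mem_finsuppAntidiag]
    simp only [subset_univ, and_true]
    change ∑ i, α i = _ ↔ _
    omega
  · simp only [notMem_empty, false_iff]
    omega

theorem sig_sum (k : ℤ) (γ : ι → X.J → ℤ) :
    sig k (∑ i, line X (γ i)) = ∑ α ∈ Tk ι k, line X (∑ i, α i • γ i) := by
  classical
  unfold Tk
  split_ifs with hk
  · obtain ⟨n, rfl⟩ := Int.eq_ofNat_of_zero_le hk
    have := congrArg (PowerSeries.coeff n) (sS_sum (univ : Finset ι) γ)
    rw [sS, PowerSeries.coeff_mk, PowerSeries.coeff_prod] at this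
    rw [this, Int.toNat_natCast]
    refine sum_congr (by congr) fun α _ => ?_
    rw [line_sum]
    exact prod_congr rfl fun i _ => by rw [PowerSeries.coeff_mk, line_nsmul]
  · rw [sum_empty, sig_neg (by omega)]

end count

/-! ### descent along a recurrence -/

section desc

variable {R A : Type*} [CommRing R] [AddCommGroup A] [Module R A]

/-- the iterated difference operator -/
def df (l : List R) (H : ℤ → A) : ℤ → A := l.foldr (fun L H' k => H' k - L • H' (k - 1)) H

theorem df_cons (L : R) (l : List R) (H : ℤ → A) (k : ℤ) :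
    df (L :: l) H k = df l H k - L • df l H (k - 1) := rfl

theorem df_sub (l : List R) (H H' : ℤ → A) (k : ℤ) :
    df l (fun k => H k - H' k) k = df l H k - df l H' k := by
  induction l generalizing k with
  | nil => rfl
  | cons L l ih =>
    rw [df_cons, df_cons, df_cons, ih, ih, smul_sub]
    abel

theorem df_ev (l : List R) {H : ℤ → A} {k₀ : ℤ} (h : ∀ k, k₀ ≤ k → H k = 0) :
    ∀ k, k₀ + l.length ≤ k → df l H k = 0 := by
  induction l with
  | nil => exact fun k hk => h k (by simpa using hk)
  | cons L l ih =>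
    intro k hk
    rw [List.length_cons] at hk
    push_cast at hk
    rw [df_cons, ih k (by omega), ih (k - 1) (by omega), smul_zero, sub_zero]

theorem desc (l : List R) (hl : ∀ L ∈ l, IsUnit L) {H : ℤ → A} {k₀ : ℤ}
    (h : ∀ k, k₀ ≤ k → H k = 0) :
    ∀ c : ℤ, (∀ k, c ≤ k → df l H k = 0) → ∀ k, c - l.length ≤ k → H k = 0 := by
  induction l with
  | nil => exact fun c hc k hk => hc k (by simpa using hk)
  | cons L l ih =>
    intro c hc k hk
    rw [List.length_cons] at hk
    push_cast at hk
    refine ih (fun L' hL' => hl L' (List.mem_cons_of_mem _ hL')) (c - 1) ?_ k (by omega)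
    have key : ∀ n : ℕ, ∀ k, c - 1 ≤ k → k₀ + l.length - n ≤ k → df l H k = 0 := by
      intro n
      induction n with
      | zero => exact fun k _ hk => df_ev l h k (by simpa using hk)
      | succ n ihn =>
        intro k h1 h2
        push_cast at h2
        have h3 := hc (k + 1) (by omega)
        rw [df_cons, ihn (k + 1) (by omega) (by omega), zero_sub, neg_eq_zero,
          add_sub_cancel_right] at h3
        exact (hl L List.mem_cons_self).smul_eq_zero.1 h3
    intro k hk
    exact key (k₀ + l.length - k).toNat k hk (by omega)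

end desc

/-! ### the polynomial ring -/

variable {X P : Spc} {π : Mor P X} {Q : Prj π} {ι : Type} [Fintype ι] {d : ι → X.J → ℤ}
  {y : ι → P.R}

variable (y) in
/-- a monomial -/
def mo (α : ι →₀ ℕ) : P.R := ∏ i, y i ^ α i

variable (π y) in
/-- the evaluation -/
abbrev ev : MvPolynomial ι X.R →ₐ[ℂ] P.R := MvPolynomial.aevalTower π.φ y

theorem ev_mon (α : ι →₀ ℕ) (r : X.R) : ev π y (MvPolynomial.monomial α r) = π.φ r * mo y α := by
  rw [MvPolynomial.monomial_eq, map_mul, MvPolynomial.aevalTower_C, Finsupp.prod_fintype _ _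
    (fun _ => pow_zero _), map_prod]
  simp only [map_pow, MvPolynomial.aevalTower_X]
  rfl

variable (h : IsAdj Q d y)
include h

theorem mo_wt (α : ι →₀ ℕ) : mo y α ∈ P.wt (π.ρ (∑ i, α i • d i) + Q.σ fun _ => dg α) := by
  have h1 := Spc.prod_mem univ fun i _ => Spc.pow_mem (h.wt i) (α i)
  have h2 : (fun _ : Q.E => dg α) = ∑ i, α i • (1 : Q.E → ℤ) := by
    funext e
    simp [dg, Finset.sum_apply]
  rw [h2, map_sum, map_sum, ← sum_add_distrib]
  simp only [map_nsmul, ← smul_add]
  exact h1

theorem ring_ind {p : P.R → Prop} (h1 : ∀ α r, p (π.φ r * mo y α))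
    (h2 : ∀ a b, p a → p b → p (a + b)) (a : P.R) : p a := by
  obtain ⟨q, rfl⟩ := h.bij.2 a
  induction q using MvPolynomial.induction_on' with
  | monomial α r => exact ev_mon (π := π) (y := y) α r ▸ h1 α r
  | add p q hp hq => rw [map_add]; exact h2 _ _ hp hq

theorem const_inj {k l : ℤ} (e : (fun _ : Q.E => k) = fun _ => l) : k = l := by
  obtain ⟨e0, -⟩ := Fintype.card_eq_one_iff.1 h.card
  exact congrFun e e0

theorem eq_const (k : Q.E → ℤ) : ∃ n : ℤ, k = fun _ => n := by
  obtain ⟨e0, h0⟩ := Fintype.card_eq_one_iff.1 h.card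
  exact ⟨k e0, funext fun e => by rw [h0 e]⟩

theorem pts (z : P.Pt) : ∃ i, z.1 (y i) ≠ 0 := by
  obtain ⟨e0, h0⟩ := Fintype.card_eq_one_iff.1 h.card
  obtain ⟨a, ha, hz⟩ := ((Q.pts z.1).1 z.2).2 e0
  obtain ⟨γ, hγ⟩ := Q.y_wt e0 a ha
  have h1 : (Pi.single e0 1 : Q.E → ℤ) = fun _ => 1 := funext fun e => by rw [h0 e]; simp
  have h2 := Q.mem_wtE (M := one P) hγ
  rw [Q.π_add, h1] at h2
  by_contra hn
  push Not at hn
  have key : ∀ a : P.R, z.1 (cmp (Q.spanE (one P)) (fun _ => 1) a) = 0 := by
    refine ring_ind h (fun α r => ?_) fun a b ha hb => ?_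
    · have h3 := Q.mem_wtE (M := one P) (mo_wt h α)
      rw [Q.π_add] at h3
      have h4 : π.φ r * mo y α ∈ wt (Q.actE (one P)) fun _ => dg α := Q.smul_mem_wtE r h3
      by_cases e : dg α = 1
      · rw [e] at h4
        refine (congrArg z.1 (cmp_of_mem (Q.spanE (one P)) h4)).trans ?_
        have h5 : ∃ i, α i ≠ 0 := by
          by_contra h5
          push Not at h5
          simp [dg, h5] at e
        obtain ⟨i, hi⟩ := h5
        have h6 : z.1 (mo y α) = 0 := by
          rw [mo, map_prod]
          exact prod_eq_zero (mem_univ i) (by rw [map_pow, hn, zero_pow hi])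
        exact (map_mul z.1 _ _).trans (by rw [h6, mul_zero])
      · exact (congrArg z.1 (cmp_of_ne (Q.spanE (one P)) (fun e' => e (const_inj h e')) h4)).trans
          (map_zero z.1)
    · exact (congrArg z.1 (map_add (cmp (Q.spanE (one P)) fun _ => 1) a b)).trans
        ((map_add z.1 _ _).trans ((congrArg₂ (· + ·) ha hb).trans (add_zero 0)))
  exact hz ((congrArg z.1 (cmp_of_mem (Q.spanE (one P)) h2)).symm.trans (key a))

theorem exists_co (M : GMod X) (α : ι →₀ ℕ) : ∃ co : (π.pull M).M →+ M.M,
    ∀ β m, co (π.tm M (mo y β) m) = if β = α then m else 0 := by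
  classical
  let e := RingEquiv.ofBijective (ev π y : MvPolynomial ι X.R →+* P.R) h.bij
  have he : ∀ q, e.symm (ev π y q) = q := e.symm_apply_apply
  let u : P.R →+ M.M →+ M.M :=
    { toFun := fun a => DistribSMul.toAddMonoidHom M.M (MvPolynomial.coeff α (e.symm a))
      map_zero' := AddMonoidHom.ext fun m => by simp
      map_add' := fun a b => AddMonoidHom.ext fun m => by simp [add_smul] }
  have hu : ∀ a m, u a m = MvPolynomial.coeff α (e.symm a) • m := fun _ _ => rfl
  refine ⟨π.pullLift M u fun r a n => ?_, fun β m => ?_⟩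
  · have h1 : e.symm (π.φ r) = MvPolynomial.C r := by
      rw [← he (MvPolynomial.C r), MvPolynomial.aevalTower_C]
    rw [hu, hu, map_mul, h1, MvPolynomial.coeff_C_mul, mul_comm, mul_smul]
  · have h1 : e.symm (mo y β) = MvPolynomial.monomial β 1 := by
      rw [← he (MvPolynomial.monomial β 1), ev_mon, map_one, one_mul]
    rw [Mor.pullLift_tm, hu, h1, MvPolynomial.coeff_monomial]
    split_ifs
    · rw [one_smul]
    · rw [zero_smul]

theorem tm_wtE (M : GMod X) (α : ι →₀ ℕ) (m : M.M) :
    π.tm M (mo y α) m ∈ wt (Q.actE (π.pull M)) fun _ => dg α := by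
  induction m using M.induction with
  | h0 => rw [π.tm_zero]; exact Submodule.zero_mem _
  | ha a b ha hb => rw [π.tm_add]; exact Submodule.add_mem _ ha hb
  | hw γ m hm =>
    have := Q.mem_wtE (π.tm_mem_wt M (mo_wt h α) hm)
    rwa [map_add, Q.π_add, Q.π_ρ, add_zero] at this

theorem cls_part' (k : ℤ) (M : GMod X) : cls (Q.part (fun _ => k) (π.pull M)) =
    ∑ α ∈ Tk ι k, cls (M.shift (-∑ i, α i • d i)) := by
  classical
  let N : Tk ι k → GMod X := fun α => M.shift (-∑ i, α.1 i • d i)
  let v : (pi N).M → (π.pull M).M := fun m =>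
    ∑ α : Tk ι k, π.tm M (mo y α.1) ((M.toShift _).symm (m α))
  have hv : ∀ m, v m ∈ wt (Q.actE (π.pull M)) fun _ => k := fun m =>
    Submodule.sum_mem _ fun α _ => by
      have := tm_wtE h M α.1 ((M.toShift _).symm (m α))
      rwa [mem_Tk.1 α.2] at this
  let F : (pi N).M →ₗ[X.R] (Q.part (fun _ => k) (π.pull M)).M :=
    { toFun := fun m => Q.el (v m) (hv m)
      map_add' := fun a b => Q.val_inj (by
        rw [map_add, Q.val_el, Q.val_el, Q.val_el, ← sum_add_distrib]
        exact sum_congr rfl fun α _ => π.tm_add M _ _ _)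
      map_smul' := fun r a => Q.val_inj (by
        rw [RingHom.id_apply, Q.val_smul, Q.val_el, Q.val_el, smul_sum]
        exact sum_congr rfl fun α _ => π.tm_smul M _ r _) }
  have hF : ∀ m, Q.val (F m) = v m := fun _ => rfl
  rw [← sum_coe_sort, ← cls_pi N]
  refine (cls_bij (f := F) (isHom_of_wt fun γ m hm => ?_) ⟨fun a b e => ?_, fun x => ?_⟩).symm
  · rw [Q.mem_part_wt', hF]
    refine Submodule.sum_mem _ fun α _ => ?_
    have h1 : m α ∈ (N α).wt γ := fun g => congrFun (hm g) α
    have h2 := π.tm_mem_wt M (mo_wt h α.1) (mem_shift_wt'.1 h1)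
    rw [mem_Tk.1 α.2, map_add, map_neg] at h2
    convert h2 using 2
    abel
  · funext α
    obtain ⟨co, hco⟩ := exists_co h M α.1
    have key : ∀ m, co (v m) = (M.toShift _).symm (m α) := fun m => by
      simp only [v, map_sum, hco, Subtype.val_inj]
      rw [sum_ite_eq' univ α, if_pos (mem_univ _)]
    have h1 := congrArg (fun x => co (Q.val x)) e
    simp only [hF, key] at h1
    exact (M.toShift _).symm.injective h1
  · have key : ∀ w : (π.pull M).M, ∃ m, v m = cmp (Q.spanE (π.pull M)) (fun _ => k) w := by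
      have hadd : ∀ a b : (π.pull M).M,
          (∃ m, v m = cmp (Q.spanE (π.pull M)) (fun _ => k) a) →
          (∃ m, v m = cmp (Q.spanE (π.pull M)) (fun _ => k) b) →
          ∃ m, v m = cmp (Q.spanE (π.pull M)) (fun _ => k) (a + b) := by
        rintro a b ⟨m, hm⟩ ⟨m', hm'⟩
        refine ⟨m + m', ?_⟩
        rw [map_add, ← hm, ← hm', ← hF, ← hF, ← hF, map_add, map_add]
      have h0 : v 0 = 0 := by rw [← hF, map_zero, map_zero]
      refine π.pull_induction M ⟨0, by rw [h0, map_zero]⟩ (fun a n => ?_) hadd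
      revert a
      refine ring_ind h (fun α r => ?_) fun a b ha hb => ?_
      · rw [← π.tm_smul]
        have h1 := tm_wtE h M α (r • n)
        by_cases e : dg α = k
        · rw [e] at h1
          rw [cmp_of_mem _ h1]
          refine ⟨Pi.single (M := fun α => (N α).M) ⟨α, mem_Tk.2 e⟩ (M.toShift _ (r • n)), ?_⟩
          simp only [v]
          rw [sum_eq_single ⟨α, mem_Tk.2 e⟩]
          · rw [Pi.single_eq_same, LinearEquiv.symm_apply_apply]
          · intro β _ hβ
            rw [Pi.single_eq_of_ne hβ, map_zero, π.tm_zero]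
          · exact fun h => absurd (mem_univ _) h
        · exact ⟨0, by rw [h0, cmp_of_ne _ (fun e' => e (const_inj h e')) h1]⟩
      · rw [π.tm_add_left]
        exact hadd _ _ ha hb
    obtain ⟨m, hm⟩ := key (Q.val x)
    exact ⟨m, Q.val_inj (by rw [hF, hm, cmp_of_mem _ (Q.val_mem x)])⟩

end AdjX

end Vale.Agent.P297Z
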