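import Vale.Agent.P297Z.Ch.Cc
import Vale.Agent.P297Z.K.AP
import Vale.Agent.P297Z.K.Prj
import Vale.Agent.P297Z.Ch.AdjA

/-!
# P297: the projective bundle of a sum of lines and the Segre formula
-/

set_option linter.all false

noncomputable section

namespace Vale.Agent.P297Z

open PowerSeries Finset GMod

variable {W W₁ W₂ X Y : Spc}

theorem isAdj_adjPr (X : Spc) (ι : Type) [Fintype ι] [Nonempty ι] (d : ι → X.J → ℤ) :
    IsAdj (Prj.adjPr X ι d) d MvPolynomial.X := by
  refine ⟨Fintype.card_unit, fun i => ?_, ?_⟩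
  · refine (congrArg (fun δ => _ ∈ (X.adj ι d).wt δ) (funext fun j => ?_)).mpr (Spc.X_mem X ι d i)
    cases j
    · exact zero_add (1 : ℤ)
    · exact add_zero (d i _)
  · have h : ∀ q : MvPolynomial ι X.R, (MvPolynomial.aevalTower
        (IsScalarTower.toAlgHom ℂ X.R (MvPolynomial ι X.R)) MvPolynomial.X) q = q := fun q => by
      induction q using MvPolynomial.induction_on with
      | C a => exact MvPolynomial.aevalTower_C _ _ a
      | add p q hp hq => rw [map_add, hp, hq]
      | mul_X p i hp => rw [map_mul, hp, MvPolynomial.aevalTower_X]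
    exact ⟨fun a b e => (h a).symm.trans (e.trans (h b)), fun a => ⟨a, h a⟩⟩

namespace AdjX

theorem df_sig {ι : Type} (γ : ι → X.J → ℤ) (x : G X) (l : List ι) (a : K0 X) (k : ℤ) :
    df (l.map fun i => line X (γ i))
      (fun k => sig k (a + (l.map fun i => line X (γ i)).sum) • x) k = sig k a • x := by
  induction l generalizing a k with
  | nil => rw [List.map_nil, List.sum_nil, add_zero]; rfl
  | cons i l ih =>
    rw [List.map_cons, df_cons, List.sum_cons, ← add_assoc, ih, ih, ← mul_smul, ← sub_smul,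
      sig_add_line]

theorem df_push {P : Spc} {π : Mor P X} (Q : Prj π) {ι : Type} (d : ι → X.J → ℤ) (γ : X.J → ℤ)
    (z : G P) (l : List ι) (k : ℤ) :
    df (l.map fun i => line X (γ - d i)) (fun k => push Q (line P (k • (π.ρ γ + Q.σ 1)) • z)) k =
      push Q (line P (k • (π.ρ γ + Q.σ 1)) •
        (l.map fun i => 1 - line P (-(π.ρ (d i) + Q.σ 1))).prod • z) := by
  induction l generalizing k with
  | nil => rw [List.map_nil, List.map_nil, List.prod_nil, one_smul]; rfl
  | cons i l ih =>
    have h : π.ρ (γ - d i) + (k - 1) • (π.ρ γ + Q.σ 1) =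
        k • (π.ρ γ + Q.σ 1) + -(π.ρ (d i) + Q.σ 1) := by
      rw [map_sub, sub_smul, one_smul]
      abel
    rw [List.map_cons, df_cons, ih, ih, ← kact_smul (line X (γ - d i)), ← push_line, kact_smul,
      ← map_sub, List.map_cons, List.prod_cons, ← mul_smul, ← mul_smul, ← mul_smul, ← mul_smul,
      ← sub_smul, ← line_add, h, line_add]
    congr 2
    ring

end AdjX

open AdjX

section adj

variable {P : Spc} {π : Mor P X} {Q : Prj π} {ι : Type} [Fintype ι] {d : ι → X.J → ℤ}
  {y : ι → P.R}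

theorem IsAdj.flat (h : IsAdj Q d y) : π.Flat := by
  let e := RingEquiv.ofBijective (ev π y : MvPolynomial ι X.R →+* P.R) h.bij
  have he : ∀ q, e.symm (ev π y q) = q := e.symm_apply_apply
  refine flat_of_module _ (AK.flat_of_equiv _ (MvPolynomial ι X.R) e.symm.toAddEquiv fun r s => ?_)
  have h1 : e.symm (π.φ r) = MvPolynomial.C r := by
    rw [← he (MvPolynomial.C r), MvPolynomial.aevalTower_C]
  exact (map_mul e.symm _ _).trans (by rw [h1, MvPolynomial.C_mul']; rfl)

theorem IsAdj.cls_part (h : IsAdj Q d y) (k : ℤ) (M : GMod X) :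
    cls (Q.part (fun _ => k) (π.pull M)) = kact X (sig k (∑ i, line X (-d i))) (cls M) := by
  rw [cls_part' h, sig_sum, map_sum, AddMonoidHom.finsetSum_apply]
  refine sum_congr rfl fun α _ => ?_
  rw [kact_line, ← sum_neg_distrib]
  simp only [smul_neg]

/-- the projective bundle formula -/
theorem IsAdj.push (h : IsAdj Q d y) (γ : X.J → ℤ) (k : ℤ) (hk : -(Fintype.card ι : ℤ) < k)
    (x : G X) : push Q (kact P (line P (k • (π.ρ γ + Q.σ 1))) (pullG π x)) =
      kact X (sig k (∑ i, line X (γ - d i))) x := by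
  classical
  refine DFunLike.congr_fun (G_ext (ψ := (P297Z.push Q).comp
    ((kact P (line P (k • (π.ρ γ + Q.σ 1)))).comp (pullG π))) fun M => ?_) x
  obtain ⟨k₀, hk₀⟩ := push_char Q (π.pull M)
  obtain ⟨n₀, rfl⟩ := eq_const h k₀
  have h1 : ∀ k, max n₀ 0 ≤ k → P297Z.push Q (line P (k • (π.ρ γ + Q.σ 1)) • cls (π.pull M)) -
      sig k (∑ i, line X (γ - d i)) • cls M = 0 := by
    intro k hk
    obtain ⟨n, rfl⟩ := Int.eq_ofNat_of_zero_le ((le_max_right _ _).trans hk)
    have e1 : (n : ℤ) • (π.ρ γ + Q.σ 1) = π.ρ (n • γ) + Q.σ fun _ => n := by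
      rw [smul_add, map_nsmul, natCast_zsmul, ← map_zsmul]
      congr 2
      funext e
      simp
    have e2 : ∑ i, line X (γ - d i) = line X γ * ∑ i, line X (-d i) := by
      rw [mul_sum]
      exact sum_congr rfl fun i _ => by rw [sub_eq_add_neg, line_add]
    rw [← kact_smul, kact_line, e1, hk₀ _ fun _ => (le_max_left _ _).trans hk, h.cls_part, e2,
      sig_line_mul, line_nsmul, ← kact_mul, kact_smul, sub_self]
  have h2 : ((univ : Finset ι).toList.map fun i => 1 - line P (-(π.ρ (d i) + Q.σ 1))).prod •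
      cls (π.pull M) = 0 := by
    have := dev_zero ((univ : Finset ι).toList.map fun i => (π.ρ (d i) + Q.σ 1, y i))
      (fun p hp => by
        obtain ⟨i, -, rfl⟩ := List.mem_map.1 hp
        exact h.wt i)
      (fun z => by
        obtain ⟨i, hi⟩ := pts h z
        exact ⟨_, List.mem_map.2 ⟨i, by simp, rfl⟩, hi⟩) (cls (π.pull M))
    rwa [List.map_map] at this
  have h3 := desc ((univ : Finset ι).toList.map fun i => line X (γ - d i))
    (fun L hL => by
      obtain ⟨i, -, rfl⟩ := List.mem_map.1 hL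
      exact IsUnit.of_mul_eq_one_right _ (line_neg_mul _)) h1 1
    (fun k hk => by
      have := df_sig (fun i => γ - d i) (cls M) (univ : Finset ι).toList 0 k
      rw [zero_add, sum_map_toList, sig_ne (by omega), zero_smul] at this
      rw [df_sub, df_push, h2, smul_zero, map_zero, this, sub_zero]) k
    (by rw [List.length_map, length_toList, card_univ]; omega)
  rw [AddMonoidHom.comp_apply, AddMonoidHom.comp_apply, pullG_cls h.flat]
  exact sub_eq_zero.1 h3

/-- the Segre classes of `F - K`, `F` the sum of the lines, `K` a bundle of corank one -/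
theorem IsAdj.segre (h : IsAdj Q d y) (γ : X.J → ℤ) {K : K0 X} {s : ℕ} (hK : BCls K s)
    (hs : s + 1 = Fintype.card ι) (i : ℕ) (x : G X) :
    P297Z.push Q (kact P ((line P (π.ρ γ + Q.σ 1) - 1) ^ i *
      cc s (line P (-(π.ρ γ + Q.σ 1)) * pullK π K)) (pullG π x)) =
      kact X (cc i (K - ∑ i, line X (γ - d i))) x := by
  have h1 : BCls (line P (-(π.ρ γ + Q.σ 1)) * pullK π K) s := by
    have := (bCls_line (-(π.ρ γ + Q.σ 1))).mul (hK.pull π)
    rwa [one_mul] at this
  have h2 : rk X (∑ i, line X (γ - d i) - K) = 1 := by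
    rw [map_sub, map_sum, hK.rk]
    simp only [rk_line, sum_const, card_univ, ← hs]
    simp
  have h3 : ∀ k j : ℕ, line P (π.ρ γ + Q.σ 1) ^ k * line P (-(π.ρ γ + Q.σ 1)) ^ j =
      line P (((k : ℤ) - j) • (π.ρ γ + Q.σ 1)) := fun k j => by
    rw [← line_nsmul, ← line_nsmul, ← line_add, sub_smul, natCast_zsmul, natCast_zsmul, smul_neg,
      sub_eq_add_neg]
  rw [← neg_sub _ K, cc_neg_rk1 h2, cc_top h1, sub_eq_add_neg (line P _), add_pow, sum_mul, map_sum,
    map_sum, AddMonoidHom.finsetSum_apply, AddMonoidHom.finsetSum_apply, map_sum]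
  refine sum_congr rfl fun k _ => ?_
  rw [sig_sub hK, mul_sum, smul_sum, map_sum, map_sum, AddMonoidHom.finsetSum_apply,
    AddMonoidHom.finsetSum_apply, map_sum]
  refine sum_congr rfl fun j hj => ?_
  have e : line P (π.ρ γ + Q.σ 1) ^ k * (-1) ^ (i - k) * (i.choose k : K0 P) *
      ((-1) ^ j * lam j (line P (-(π.ρ γ + Q.σ 1)) * pullK π K)) =
      pullK π ((-1) ^ (i - k) * (i.choose k : K0 X) * ((-1) ^ j * lam j K)) *
        line P (((k : ℤ) - j) • (π.ρ γ + Q.σ 1)) := by
    rw [lam_line_mul, ← lam_pull, ← h3]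
    simp only [map_mul, map_pow, map_neg, map_one, map_natCast]
    ring
  rw [e, kact_mul, push_proj, h.push γ _ (by have := mem_range.1 hj; omega), ← kact_mul]
  congr 2
  rw [zsmul_eq_mul]
  push_cast
  ring

end adj

end Vale.Agent.P297Z
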