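import Vale.Agent.P297Z.Ch.Cc
import Vale.Agent.P297Z.Dim.Fib
import Vale.Agent.P297Z.Ch.KosB

/-!
# P297: the Koszul complex and the zero locus of a section
-/

set_option linter.all false

noncomputable section

namespace Vale.Agent.P297Z

open PowerSeries Finset GMod

variable {W W₁ W₂ X Y : Spc}

theorem koszul (B : Bun X) (σ : B.M.M →ₗ[X.R] X.R) (hσ : B.M.IsHom (one X) σ) (N : GMod X)
    (hs : N.Stab (LinearMap.range σ • ⊤)) :
    kact X (cc B.rk B.cls) (cls N) - cls (N.quo (LinearMap.range σ • ⊤) hs) ∈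
      AddSubgroup.closure {x | ∃ H : GMod X, (∀ b (h : H.M), σ b • h = 0) ∧
        (∀ r : X.R, (∀ n : N.M, r • n = 0) → ∀ h : H.M, r • h = 0) ∧
        (∀ z : X.Pt, KReg z.1 σ N.M B.rk → ZeroAt z.1 H.M) ∧ x = cls H} := by
  convert Kos.kos_sum B.free σ hσ N hs using 2
  rw [cc_top ⟨B, rfl, rfl⟩, map_sum, AddMonoidHom.finset_sum_apply]
  refine sum_congr rfl fun j _ => ?_
  rw [← kact_kc (B.free.ext j), ← lam_cls, ← AddMonoidHom.zsmul_apply, ← map_zsmul, zsmul_eq_mul,
    Int.cast_pow, Int.cast_neg, Int.cast_one]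

/-- a regular sequence that generates the image at the point gives a frame -/
theorem kReg_of {R : Type} [CommRing R] [Algebra ℂ R] [IsNoetherianRing R] {z : R →ₐ[ℂ] ℂ}
    {B : Type} [AddCommGroup B] [Module R B] [Module.Finite R B] {n : ℕ} (hB : FreeAt z B n)
    (σ : B →ₗ[R] R) (x : Fin n → R) (hx : RegAt z R x) (h0 : ∀ k, z (x k) = 0)
    (h1 : ∀ k, ∃ t b, z t ≠ 0 ∧ σ b = t * x k)
    (h2 : ∀ b, ∃ t, z t ≠ 0 ∧ t * σ b ∈ Ideal.span (Set.range x)) : KReg z σ R n := by
  letI : Module ℂ B := Module.compHom B (algebraMap ℂ R)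
  haveI : IsScalarTower ℂ R B := IsScalarTower.of_algebraMap_smul fun _ _ => rfl
  choose t b ht hb using h1
  refine ⟨Fintype.linearCombination R b, isoAt_of_fib hB ?_, ?_⟩
  · have hi : Function.Injective (fibMap z (Fintype.linearCombination R b)) := by
      refine (injective_iff_map_eq_zero _).2 fun a ha => ?_
      obtain ⟨a, rfl⟩ := fib_surj a
      obtain ⟨s, k1, k2⟩ := unif_fg (N := LinearMap.range σ) (P := Ideal.span (Set.range x))
        (Submodule.fg_range σ) (by rintro _ ⟨c, rfl⟩; exact h2 c)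
      have k3 : RingHom.ker z • (⊤ : Submodule R B) ≤ ((Submodule.pi Set.univ fun _ =>
          RingHom.ker z).map (Fintype.linearCombination R x)).comap (s • σ) :=
        Submodule.smul_le.2 fun r hr c _ => by
          obtain ⟨v, hv⟩ := Ideal.mem_span_range_iff_exists_fun.1 (k2 _ ⟨c, rfl⟩)
          refine ⟨r • v, fun i _ => Ideal.mul_mem_right _ _ hr, ?_⟩
          rw [map_smul, map_smul, Fintype.linearCombination_apply]
          exact congrArg _ hv
      obtain ⟨v, k4, k5⟩ := k3 ((Submodule.Quotient.mk_eq_zero _).1 ha)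
      refine mk_pi_eq_zero.2 fun i => ?_
      have k6 := Kos.rel_zero hx h0 n le_rfl (fun j => s * t j * a j - v j)
        (fun j hj => absurd j.2 (not_lt.2 hj)) (by
          simp only [Fintype.linearCombination_apply, LinearMap.smul_apply, map_sum, map_smul, hb,
            smul_eq_mul] at k5
          simp only [sub_mul, sum_sub_distrib, k5]
          exact sub_eq_zero.2 (sum_congr rfl fun j _ => by ring)) i
      rw [map_sub, show z (v i) = 0 from k4 i trivial, sub_zero, map_mul] at k6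
      exact (mul_eq_zero.1 k6).resolve_left (ev_mul k1 (ht i))
    exact ⟨hi, (LinearMap.injective_iff_surjective_of_finrank_eq_finrank
      (f := fibC z (Fintype.linearCombination R b))
      ((freeAt_pi (z := z) n).fdim.trans hB.fdim.symm)).1 hi⟩
  · simpa only [Fintype.linearCombination_apply_single, one_smul, hb] using Kos.regAt_unit hx ht

/-- The zero locus: `p` is the ideal of the irreducible zero set, of dimension `< d + 1`; at one
of its points the section is regular and generates `p`. -/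
theorem zero_locus (B : Bun X) (σ : B.M.M →ₗ[X.R] X.R) (hσ : B.M.IsHom (one X) σ)
    (p : Ideal X.R) (hp : p.IsPrime) (hs : (one X).Stab p) (h1 : ∀ b, σ b ∈ p)
    (h2 : ∀ z : X.Pt, (∀ b, z.1 (σ b) = 0) → ∀ r ∈ p, z.1 r = 0) (z : X.Pt)
    (hz : ∀ r ∈ p, z.1 r = 0) (hr : KReg z.1 σ X.R B.rk)
    (hg : ∀ r ∈ p, ∃ t, z.1 t ≠ 0 ∧ t * r ∈ LinearMap.range σ) (d : ℕ)
    (hd : ringKrullDim (X.R ⧸ p) < (d + 1 : ℕ)) :
    kact X (cc B.rk B.cls) (oG X) - cls ((one X).quo p hs) ∈ Fl X d := by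
  have hJ : (one X).Stab (LinearMap.range σ • ⊤) := Stab.smul hσ.stab_range (stab_top _)
  have hle : (LinearMap.range σ • ⊤ : Ideal X.R) ≤ Submodule.comap LinearMap.id p :=
    Submodule.smul_le.2 (by rintro _ ⟨b, rfl⟩ r -; exact p.mul_mem_right r (h1 b))
  have hu := (IsHom.id (one X)).mapQ hJ hs hle
  have k1 := (AddSubgroup.closure_le (Fl X d)).2 (by
    rintro _ ⟨H, k1, -, k2, rfl⟩
    exact Kos.mem_Fl hp h2 hz hd H k1 (k2 z hr)) (koszul B σ hσ (one X) hJ)
  rw [cls_ses (hu.ses_ker fun _ => .of_surj fun a => by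
    obtain ⟨a, rfl⟩ := Submodule.Quotient.mk_surjective _ a
    exact ⟨Submodule.Quotient.mk a, rfl⟩)] at k1
  have k2 := Kos.mem_Fl hp h2 hz hd hu.kerM (fun b ⟨a, ha⟩ => Subtype.ext (by
    obtain ⟨a, rfl⟩ := Submodule.Quotient.mk_surjective _ a
    exact (Submodule.Quotient.mk_eq_zero _).2
      (Submodule.smul_mem_smul (LinearMap.mem_range_self σ b) Submodule.mem_top)))
    fun ⟨a, ha⟩ => by
      obtain ⟨a, rfl⟩ := Submodule.Quotient.mk_surjective _ a
      obtain ⟨t, k3, k4⟩ := hg a ((Submodule.Quotient.mk_eq_zero _).1 ha)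
      refine ⟨t, k3, Subtype.ext ((Submodule.Quotient.mk_eq_zero _).2 ?_)⟩
      exact (Ideal.mul_top (LinearMap.range σ : Ideal X.R)).ge k4
  convert add_mem k1 k2 using 1
  unfold oG
  abel

end Vale.Agent.P297Z
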