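import Vale.Agent.P297Z.Ch.Split
import Vale.Agent.P297Z.Ch.Kos
import Vale.Agent.P297Z.Ch.Adj
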