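import Vale.Agent.P297Z.K.KG

/-!
# P297: definitions for the theory of Chern classes
-/

noncomputable section

namespace Vale.Agent.P297Z

variable {W W₁ X : Spc}

/-- the class of a bundle of rank `r` -/
abbrev BCls (a : K0 X) (r : ℕ) : Prop := ∃ B : Bun X, B.rk = r ∧ B.cls = a

/-- the total exterior power as a power series -/
def lamS (a : K0 X) : PowerSeries (K0 X) :=
  (((lamT X a).toMul : (PowerSeries (K0 X))ˣ) : PowerSeries (K0 X))

/-- the coefficients of the inverse of `lam (-t)`: the symmetric powers -/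
def sig (k : ℤ) (a : K0 X) : K0 X := if 0 ≤ k then (-1) ^ k.toNat * lam k.toNat (-a) else 0

/-- a map with a push-forward that is onto on every level of the dimension filtration -/
def Dom (π : Mor W₁ W) : Prop :=
  ∃ p : G W₁ →+ G W, (∀ a g, p (kact W₁ (pullK π a) g) = kact W a (p g)) ∧
    ∀ d, (Fd W₁ d).map p = Fd W d

/-- `x` is a regular sequence on `N` at the point `z` -/
def RegAt {R : Type} [CommRing R] [Algebra ℂ R] (z : R →ₐ[ℂ] ℂ) (N : Type) [AddCommGroup N]
    [Module R N] {n : ℕ} (x : Fin n → R) : Prop :=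
  ∀ (k : Fin n) (m : N), x k • m ∈ Ideal.span (x '' Set.Iio k) • (⊤ : Submodule R N) →
    ∃ r, z r ≠ 0 ∧ r • m ∈ Ideal.span (x '' Set.Iio k) • (⊤ : Submodule R N)

/-- in some local frame the section is a regular sequence on `N` -/
def KReg {R : Type} [CommRing R] [Algebra ℂ R] (z : R →ₐ[ℂ] ℂ) {B : Type} [AddCommGroup B]
    [Module R B] (σ : B →ₗ[R] R) (N : Type) [AddCommGroup N] [Module R N] (n : ℕ) : Prop :=
  ∃ e : (Fin n → R) →ₗ[R] B, IsoAt z e ∧ RegAt z N fun k => σ (e (Pi.single k 1))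

/-- the ring of the source is a polynomial ring in one block of new coordinates -/
structure IsAdj {P : Spc} {π : Mor P X} (Q : Prj π) {ι : Type} [Fintype ι] (d : ι → X.J → ℤ)
    (y : ι → P.R) : Prop where
  card : Fintype.card Q.E = 1
  wt : ∀ i, y i ∈ P.wt (π.ρ (d i) + Q.σ 1)
  bij : Function.Bijective (MvPolynomial.aevalTower π.φ y : MvPolynomial ι X.R →ₐ[ℂ] P.R)

end Vale.Agent.P297Z
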