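import Vale.Agent.P297Z.Ch.Defs
import Vale.Agent.P297Z.K.Fib
import Vale.Agent.P297Z.Loc.Kos

/-!
# P297: the Koszul complex of a regular sequence is exact at the point
-/

set_option linter.all false

open scoped TensorProduct

noncomputable section

namespace Vale.Agent.P297Z.Kos

open Sg

section ct

variable {A C N : Type} [CommRing A] [AddCommGroup C] [Module A C] [AddCommGroup N] [Module A N]

variable (A C N) in
/-- the terms of the complex -/
abbrev T (i : ℕ) : Type := Ex A i C ⊗[A] N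

theorem kd_tmul' (i : ℕ) (φ : C →ₗ[A] A) (v : Fin (i + 1) → C) (n : N) :
    kd i (LinearMap.lsmul A N ∘ₗ φ) (im A (i + 1) v ⊗ₜ n) =
      ∑ j : Fin (i + 1), (-1 : ℤ) ^ (j : ℕ) • φ (v j) • im A i (j.removeNth v) ⊗ₜ[A] n := by
  rw [kd_tmul]
  exact Finset.sum_congr rfl fun j _ => congrArg _ (TensorProduct.tmul_smul _ _ _)

theorem ext_ten {i : ℕ} {P : Type} [AddCommGroup P] [Module A P] {f g : T A C N i →ₗ[A] P}
    (h : ∀ v n, f (im A i v ⊗ₜ n) = g (im A i v ⊗ₜ n)) : f = g :=
  LinearMap.ext fun x => by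
    induction x using ind_ten with
    | h0 => simp only [map_zero]
    | ha x y hx hy => simp only [map_add, hx, hy]
    | h v n => exact h v n

variable (N) in
/-- the contraction with a linear form -/
def ct (i : ℕ) : (C →ₗ[A] A) →ₗ[A] T A C N (i + 1) →ₗ[A] T A C N i where
  toFun φ := kd i (LinearMap.lsmul A N ∘ₗ φ)
  map_add' φ ψ := ext_ten fun v n => by
    simp only [kd_tmul', LinearMap.add_apply, add_smul, smul_add, Finset.sum_add_distrib]
  map_smul' r φ := ext_ten fun v n => by
    simp only [kd_tmul', LinearMap.smul_apply, RingHom.id_apply, Finset.smul_sum, smul_eq_mul,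
      mul_smul, smul_comm r ((-1 : ℤ) ^ _)]

theorem ct_tmul (i : ℕ) (φ : C →ₗ[A] A) (v : Fin (i + 1) → C) (n : N) :
    ct N i φ (im A (i + 1) v ⊗ₜ n) =
      ∑ j : Fin (i + 1), (-1 : ℤ) ^ (j : ℕ) • φ (v j) • im A i (j.removeNth v) ⊗ₜ[A] n :=
  kd_tmul' i φ v n

variable (N) in
/-- the exterior product with a vector -/
def wd (i : ℕ) : C →ₗ[A] T A C N i →ₗ[A] T A C N (i + 1) where
  toFun c := (wedge i c).rTensor N
  map_add' c c' := by
    rw [← LinearMap.rTensor_add, wedge, map_add]
    exact congrArg _ (map_add exteriorPower.alternatingMapLinearEquiv _ _)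
  map_smul' r c := by
    rw [RingHom.id_apply, ← LinearMap.rTensor_smul, wedge, map_smul]
    exact congrArg _ (map_smul exteriorPower.alternatingMapLinearEquiv _ _)

theorem wd_tmul (i : ℕ) (c : C) (v : Fin i → C) (n : N) :
    wd N i c (im A i v ⊗ₜ n) = im A (i + 1) (Fin.cons c v) ⊗ₜ n :=
  congrArg (· ⊗ₜ[A] n) (wedge_im i c v)

theorem lT (i : ℕ) (φ : C →ₗ[A] A) (c : C) (x : T A C N i) :
    ((LinearMap.lsmul A N ∘ₗ φ) c).lTensor _ x = φ c • x := by
  induction x using TensorProduct.induction_on with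
  | zero => simp only [map_zero, smul_zero]
  | add x y hx hy => simp only [map_add, hx, hy, smul_add]
  | tmul y n => exact TensorProduct.tmul_smul _ _ _

theorem ct_wd0 (φ : C →ₗ[A] A) (c : C) (x : T A C N 0) : ct N 0 φ (wd N 0 c x) = φ c • x :=
  (homot0 _ c x).trans (lT 0 φ c x)

theorem ct_wd (i : ℕ) (φ : C →ₗ[A] A) (c : C) (x : T A C N (i + 1)) :
    ct N (i + 1) φ (wd N (i + 1) c x) = φ c • x - wd N i c (ct N i φ x) :=
  (homot i _ c x).trans (by rw [lT]; rfl)

theorem ct_self (i : ℕ) (φ : C →ₗ[A] A) (x : T A C N (i + 1 + 1)) :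
    ct N i φ (ct N (i + 1) φ x) = 0 :=
  kd_kd (fun c c' n => smul_comm (φ c) (φ c') n) i x

theorem ct_ct (i : ℕ) (φ ψ : C →ₗ[A] A) (x : T A C N (i + 1 + 1)) :
    ct N i φ (ct N (i + 1) ψ x) = -ct N i ψ (ct N (i + 1) φ x) := by
  have h := ct_self i (φ + ψ) x
  simp only [map_add, LinearMap.add_apply, ct_self, zero_add, add_zero] at h
  exact eq_neg_of_add_eq_zero_right h

/-- Euler's identity -/
theorem euler {ι : Type} [Fintype ι] {s : A} {e : ι → C} {l : ι → C →ₗ[A] A}
    (h : ∀ c, ∑ k, l k c • e k = s • c) (i : ℕ) (x : T A C N (i + 1)) :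
    ∑ k, wd N i (e k) (ct N i (l k) x) = ((i + 1 : ℕ) * s : A) • x := by
  induction x using ind_ten with
  | h0 => simp only [map_zero, smul_zero, Finset.sum_const_zero]
  | ha x y hx hy => simp only [map_add, Finset.sum_add_distrib, hx, hy, smul_add]
  | h v n =>
    have k1 : ∀ j : Fin (i + 1), ∑ k, wd N i (e k) ((-1 : ℤ) ^ (j : ℕ) • l k (v j) •
        im A i (j.removeNth v) ⊗ₜ[A] n) = s • im A (i + 1) v ⊗ₜ[A] n := fun j => by
      have k2 := (im A (i + 1) (C := C)).map_insertNth j (v j) (j.removeNth v)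
      rw [Fin.insertNth_self_removeNth] at k2
      have k3 := congrArg (fun c => wd N i c (im A i (j.removeNth v) ⊗ₜ[A] n)) (h (v j))
      simp only [map_sum, map_smul, LinearMap.sum_apply, LinearMap.smul_apply] at k3
      simp only [map_zsmul, map_smul, ← Finset.smul_sum]
      rw [k3, wd_tmul, smul_comm, k2, ← TensorProduct.smul_tmul']
      rfl
    simp only [ct_tmul, map_sum]
    rw [Finset.sum_comm]
    simp only [k1, Finset.sum_const, Finset.card_univ, Fintype.card_fin, mul_smul,
      Nat.cast_smul_eq_nsmul]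

theorem ct_wd_ct (i : ℕ) {φ ψ : C →ₗ[A] A} (c : C) {w : T A C N (i + 1)}
    (h : ct N i φ w = 0 ∨ φ = ψ) :
    ct N i φ (wd N i c (ct N i ψ w)) = φ c • ct N i ψ w := by
  cases i with
  | zero => exact ct_wd0 _ _ _
  | succ i =>
    rw [ct_wd]
    rcases h with h | rfl
    · rw [ct_ct, h, map_zero, neg_zero, map_zero, sub_zero]
    · rw [ct_self, map_zero, sub_zero]

theorem smul_top_le {S : Submodule A N} {s : Set A} (h : ∀ r ∈ s, ∀ m, r • m ∈ S) :
    Ideal.span s • ⊤ ≤ S :=
  Submodule.smul_le.2 fun _ hr m _ => (Ideal.span_le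
    (I := S.comap (LinearMap.toSpanSingleton A N m))).2 (fun r hr => h r hr m) hr

/-- the term of degree zero -/
def u0 (A C N : Type) [CommRing A] [AddCommGroup C] [Module A C] [AddCommGroup N] [Module A N] :
    T A C N 0 ≃ₗ[A] N :=
  (TensorProduct.congr (show Ex A 0 C ≃ₗ[A] A from exteriorPower.zeroEquiv A C)
    (LinearEquiv.refl A N)).trans (TensorProduct.lid A N)

theorem u0_tmul (v : Fin 0 → C) (n : N) : u0 A C N (im A 0 v ⊗ₜ n) = n :=
  (congrArg (· • n) (exteriorPower.zeroEquiv_ιMulti (R := A) v)).trans (one_smul _ _)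

theorem range_ct0 (σ : C →ₗ[A] A) :
    LinearMap.range ((u0 A C N).toLinearMap ∘ₗ ct N 0 σ) = LinearMap.range σ • ⊤ := by
  refine le_antisymm ?_ (Submodule.smul_le.2 ?_)
  · rintro _ ⟨x, rfl⟩
    induction x using ind_ten with
    | h0 => rw [map_zero]; exact Submodule.zero_mem _
    | ha x y hx hy => rw [map_add]; exact Submodule.add_mem _ hx hy
    | h v n =>
      rw [LinearMap.comp_apply, ct_tmul, Fin.sum_univ_succ, Fin.sum_univ_zero, add_zero,
        map_zsmul, map_smul]
      exact zsmul_mem (Submodule.smul_mem_smul (LinearMap.mem_range_self σ _)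
        Submodule.mem_top) _
  · rintro _ ⟨c, rfl⟩ n -
    exact ⟨wd N 0 c ((u0 A C N).symm n), by
      rw [LinearMap.comp_apply, ct_wd0, map_smul, LinearEquiv.coe_coe,
        LinearEquiv.apply_symm_apply]⟩

end ct

section reg

variable {R : Type} [CommRing R] [Algebra ℂ R] {z : R →ₐ[ℂ] ℂ} {B N N' : Type} [AddCommGroup B]
  [Module R B] [AddCommGroup N] [Module R N] [AddCommGroup N'] [Module R N'] {n : ℕ}

theorem exact_aux {σ : B →ₗ[R] R} {s : R} {e : Fin n → B} {l : Fin n → B →ₗ[R] R} (hs : z s ≠ 0)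
    (h1 : ∀ c, ∑ k, l k c • e k = s • c) (h2 : ∀ i j, l i (e j) = if i = j then s else 0)
    (hr : RegAt z (T R B N 0) fun k => σ (e k)) (k : ℕ) (hk : k ≤ n) (i : ℕ)
    (w : T R B N (i + 1)) (hw : ∀ j : Fin n, k ≤ j → ct N i (l j) w = 0) (h0 : ct N i σ w = 0) :
    ∃ r w', z r ≠ 0 ∧ (∀ j : Fin n, k ≤ j → ct N (i + 1) (l j) w' = 0) ∧
      ct N (i + 1) σ w' = r • w := by
  induction k generalizing i with
  | zero =>
    refine ⟨(i + 1 : ℕ) * s, 0, ev_mul ?_ hs, fun j _ => map_zero _, ?_⟩
    · rw [map_natCast]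
      exact Nat.cast_ne_zero.2 i.succ_ne_zero
    · rw [← euler h1, map_zero]
      exact (Finset.sum_eq_zero fun j _ => by rw [hw j j.1.zero_le, map_zero]).symm
  | succ k ih =>
    have ih := ih (Nat.le_of_succ_le hk)
    set κ : Fin n := ⟨k, hk⟩ with hκ
    have hc : ∀ j : Fin n, k ≤ j → j = κ ∨ j ≠ κ ∧ ct N i (l j) w = 0 := fun j hj =>
      (eq_or_ne j κ).imp_right fun h => ⟨h, hw j (lt_of_le_of_ne hj fun e => h (Fin.ext e.symm))⟩
    have hA : ∀ j : Fin n, k ≤ j →
        ct N i (l j) (s • w - wd N i (e κ) (ct N i (l κ) w)) = 0 := fun j hj => by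
      rcases hc j hj with rfl | ⟨h, h'⟩
      · rw [map_sub, map_smul, ct_wd_ct _ _ (.inr rfl), h2, if_pos rfl, sub_self]
      · rw [map_sub, map_smul, ct_wd_ct _ _ (.inl h'), h2, if_neg h, h', smul_zero, zero_smul,
          sub_self]
    have hB : ct N i σ (s • w - wd N i (e κ) (ct N i (l κ) w)) = -σ (e κ) • ct N i (l κ) w := by
      rw [map_sub, map_smul, ct_wd_ct _ _ (.inl h0), h0, smul_zero, zero_sub, neg_smul]
    obtain ⟨r, β, k1, k2, k3⟩ : ∃ r β, z r ≠ 0 ∧ (∀ j : Fin n, k ≤ j → ct N i (l j) β = 0) ∧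
        ct N i σ β = r • ct N i (l κ) w := by
      cases i with
      | zero =>
        have e1 : s • σ = ∑ j, σ (e j) • l j := LinearMap.ext fun c => by
          rw [LinearMap.smul_apply, ← map_smul, ← h1, map_sum, LinearMap.sum_apply]
          exact Finset.sum_congr rfl fun j _ => by
            rw [map_smul, LinearMap.smul_apply, smul_eq_mul, smul_eq_mul, mul_comm]
        have e2 := congrArg (fun φ => ct N 0 φ (s • w - wd N 0 (e κ) (ct N 0 (l κ) w))) e1
        simp only [map_smul (ct N 0), map_sum, LinearMap.smul_apply, LinearMap.sum_apply, hB] at e2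
        obtain ⟨r, k1, k2⟩ := hr κ (s • ct N 0 (l κ) w) (by
          rw [smul_comm, ← neg_mem_iff, ← smul_neg, ← neg_smul, e2]
          refine Submodule.sum_mem _ fun j _ => ?_
          by_cases hj : k ≤ j
          · rw [hA j hj, smul_zero]
            exact Submodule.zero_mem _
          · exact Submodule.smul_mem_smul (Ideal.subset_span ⟨j, not_le.1 hj, rfl⟩)
              Submodule.mem_top)
        obtain ⟨β, k3, k4⟩ := smul_top_le (S := (⨅ j : {j : Fin n // k ≤ j},
          LinearMap.ker (ct N 0 (l j))).map (ct N 0 σ)) (by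
            rintro _ ⟨j, hj, rfl⟩ m
            refine ⟨wd N 0 (e j) m, (Submodule.mem_iInf _).2 fun j' => ?_, ct_wd0 _ _ _⟩
            rw [LinearMap.mem_ker, ct_wd0, h2, if_neg, zero_smul]
            rintro rfl
            exact not_le.2 hj j'.2) k2
        exact ⟨r * s, β, ev_mul k1 hs, fun j hj => (Submodule.mem_iInf _).1 k3 ⟨j, hj⟩,
          by rw [k4, mul_smul]⟩
      | succ i =>
        refine ih i _ (fun j hj => ?_) (by rw [ct_ct, h0, map_zero, neg_zero])
        rcases hc j hj with rfl | ⟨-, h'⟩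
        · exact ct_self _ _ _
        · rw [ct_ct, h', map_zero, neg_zero]
    obtain ⟨t, α, k4, k5, k6⟩ := ih i (r • (s • w - wd N i (e κ) (ct N i (l κ) w)) + σ (e κ) • β)
      (fun j hj => by rw [map_add, map_smul, map_smul, hA j hj, k2 j hj, smul_zero, smul_zero,
        add_zero])
      (by rw [map_add, map_smul, map_smul, hB, k3, neg_smul, smul_neg, smul_comm, neg_add_cancel])
    refine ⟨t * (r * s), α - t • wd N (i + 1) (e κ) β, ev_mul k4 (ev_mul k1 hs), fun j hj => ?_, ?_⟩
    · rw [map_sub, map_smul, k5 j (Nat.le_of_succ_le hj), ct_wd, k2 j (Nat.le_of_succ_le hj), h2,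
        if_neg, zero_smul, map_zero, sub_zero, smul_zero, sub_zero]
      rintro rfl
      exact Nat.not_succ_le_self _ hj
    · rw [map_sub, map_smul, k6, ct_wd, k3, map_smul]
      module

theorem map_mem (u : N →ₗ[R] N') {I : Ideal R} {m : N} (h : m ∈ I • (⊤ : Submodule R N)) :
    u m ∈ I • (⊤ : Submodule R N') := Submodule.smul_top_le_comap_smul_top I u h

theorem regAt_equiv {x : Fin n → R} (u : N ≃ₗ[R] N') (h : RegAt z N' x) : RegAt z N x :=
  fun k m hm => by
    obtain ⟨r, h1, h2⟩ := h k (u m) (by rw [← map_smul]; exact map_mem u.toLinearMap hm)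
    exact ⟨r, h1, by simpa using map_mem u.symm.toLinearMap h2⟩

theorem regAt_unit {x t : Fin n → R} (h : RegAt z N x) (ht : ∀ k, z (t k) ≠ 0) :
    RegAt z N fun k => t k * x k := fun k m hm => by
  obtain ⟨r, h1, h2⟩ := h k (t k • m) (by
    rw [smul_comm, ← mul_smul]
    refine smul_top_le ?_ hm
    rintro _ ⟨j, hj, rfl⟩ m
    show (t j * x j) • m ∈ _
    rw [mul_comm, mul_smul]
    exact Submodule.smul_mem_smul (Ideal.subset_span ⟨j, hj, rfl⟩) Submodule.mem_top)
  refine ⟨(∏ j, t j) * (r * t k), ev_mul ?_ (ev_mul h1 (ht k)), ?_⟩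
  · rw [map_prod]
    exact Finset.prod_ne_zero_iff.2 fun j _ => ht j
  · rw [mul_smul, mul_smul]
    refine smul_top_le (S := Submodule.comap ((∏ j, t j) • LinearMap.id : N →ₗ[R] N)
      (Ideal.span ((fun k => t k * x k) '' Set.Iio k) • ⊤)) ?_ h2
    rintro _ ⟨j, hj, rfl⟩ m
    obtain ⟨c, hc⟩ := Finset.dvd_prod_of_mem t (Finset.mem_univ j)
    rw [Submodule.mem_comap, LinearMap.smul_apply, LinearMap.id_apply, hc, ← mul_smul,
      mul_right_comm, mul_smul]
    exact Submodule.smul_mem_smul (Ideal.subset_span ⟨j, hj, rfl⟩) Submodule.mem_top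

/-- the relations of a regular sequence vanish at the point -/
theorem rel_zero {x : Fin n → R} (hx : RegAt z R x) (h0 : ∀ k, z (x k) = 0) (k : ℕ) (hk : k ≤ n)
    (a : Fin n → R) (ha : ∀ j : Fin n, k ≤ j → a j = 0) (h : ∑ j, a j * x j = 0) (j : Fin n) :
    z (a j) = 0 := by
  induction k generalizing a j with
  | zero => rw [ha j j.1.zero_le, map_zero]
  | succ k ih =>
    set κ : Fin n := ⟨k, hk⟩ with hκ
    rw [← Finset.add_sum_erase _ _ (Finset.mem_univ κ)] at h
    obtain ⟨r, h1, h2⟩ := hx κ (a κ) (by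
      rw [smul_eq_mul (x κ), mul_comm (x κ), eq_neg_of_add_eq_zero_left h]
      refine neg_mem (Submodule.sum_mem _ fun j hj => ?_)
      by_cases e : k ≤ j
      · rw [ha j (lt_of_le_of_ne e fun e => (Finset.mem_erase.1 hj).1 (Fin.ext e.symm)), zero_mul]
        exact Submodule.zero_mem _
      · rw [mul_comm (a j)]
        exact Submodule.smul_mem_smul (Ideal.subset_span ⟨j, not_le.1 e, rfl⟩) Submodule.mem_top)
    obtain ⟨c, k1, k2⟩ := smul_top_le (S := (⨅ j : {j : Fin n // k ≤ j},
      LinearMap.ker (LinearMap.proj j.1 : (Fin n → R) →ₗ[R] R)).map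
        (Fintype.linearCombination R x)) (by
        rintro _ ⟨j, hj, rfl⟩ m
        refine ⟨Pi.single j m, (Submodule.mem_iInf _).2 fun j' => ?_, ?_⟩
        · refine Pi.single_eq_of_ne (M := fun _ => R) ?_ m
          rintro rfl
          exact not_le.2 hj j'.2
        · rw [Fintype.linearCombination_apply_single, smul_eq_mul, smul_eq_mul, mul_comm]) h2
    have k3 : ∀ j : Fin n, k ≤ j → c j = 0 := fun j hj => (Submodule.mem_iInf _).1 k1 ⟨j, hj⟩
    rw [Fintype.linearCombination_apply] at k2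
    simp only [smul_eq_mul] at k2
    have k4 : z (a κ) = 0 := by
      have k5 := congrArg z k2
      rw [map_sum, map_mul, Finset.sum_eq_zero fun j _ => by rw [map_mul, h0, mul_zero]] at k5
      exact (mul_eq_zero.1 k5.symm).resolve_left h1
    by_cases e : j = κ
    · rw [e, k4]
    have k5 := ih (Nat.le_of_succ_le hk) (fun j => r * Function.update a κ 0 j + c j * x κ)
      (fun j hj => by
        rw [k3 j hj, zero_mul, add_zero]
        by_cases e : j = κ
        · rw [e, Function.update_self, mul_zero]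
        · rw [Function.update_of_ne e, ha j (lt_of_le_of_ne hj fun e' => e (Fin.ext e'.symm)),
            mul_zero])
      (by
        simp only [add_mul, Finset.sum_add_distrib, mul_right_comm _ (x κ), ← Finset.sum_mul,
          mul_assoc r, ← Finset.mul_sum, k2]
        rw [← Finset.add_sum_erase _ _ (Finset.mem_univ κ), Function.update_self, zero_mul,
          zero_add, Finset.sum_congr rfl fun j hj => by
            rw [Function.update_of_ne (Finset.mem_erase.1 hj).1], ← mul_add, add_comm, h, mul_zero])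
      j
    rw [Function.update_of_ne e, map_add, map_mul, map_mul, h0, mul_zero, add_zero] at k5
    exact (mul_eq_zero.1 k5).resolve_left h1

/-- exactness at the point -/
theorem exAt_ct {σ : B →ₗ[R] R} (h : KReg z σ N n) (i : ℕ) :
    ExAt z (ct N (i + 1) σ) (ct N i σ) := fun w hw => by
  obtain ⟨e, ⟨s, u, hs, h1, h2⟩, hr⟩ := h
  obtain ⟨r, w', k1, -, k2⟩ := exact_aux (e := fun k => e (Pi.single k 1))
    (l := fun k => LinearMap.proj k ∘ₗ u) hs (fun c => by
      simp only [← map_smul, ← map_sum, ← h2]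
      congr 1
      ext j
      simp [Pi.single_apply]) (fun i j => by
      simp [h1, Pi.single_apply]) (regAt_equiv (u0 R B N) hr) n le_rfl i w
    (fun j hj => absurd j.2 (not_lt.2 hj)) hw
  exact ⟨r, w', k1, k2⟩

end reg

end Vale.Agent.P297Z.Kos
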