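import Vale.Agent.P297Z.Ch.PBB

/-!
# P297: the projective bundle of a module
-/

set_option linter.all false

noncomputable section

namespace Vale.Agent.P297Z.PB

open GMod Dim Polynomial AK

variable {W X Y : Spc}

/-- the identity map to the structure module -/
def toOne (X : Spc) : X.R ≃ₗ[X.R] (one X).M := LinearEquiv.refl X.R X.R

section con

variable {B : GMod W} {ι : Type} [Fintype ι] {v : ι → B.M} {d : ι → W.J → ℤ}

theorem act_comb (hv : ∀ i, v i ∈ B.wt (d i)) (h : W.J → ℂˣ) (a : ι → W.R) :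
    B.act h (∑ i, a i • v i) = ∑ i, (chr (d i) h • W.act h (a i)) • v i := by
  rw [map_sum]
  refine Finset.sum_congr rfl fun i _ => ?_
  rw [B.act_smul, B.mem_wt.1 (hv i), smul_assoc, smul_comm]

theorem act_form (f : Mor X W) {e : X.J → ℤ} {y : ι → X.R} (hy : ∀ i, y i ∈ X.wt (f.ρ (d i) + e))
    (g : X.J → ℂˣ) (a : ι → W.R) : X.act g (∑ i, f.φ (a i) * y i) =
      chr e g • ∑ i, f.φ (chr (d i) (tor f.ρ g) • W.act (tor f.ρ g) (a i)) * y i := by
  rw [map_sum, Finset.smul_sum]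
  refine Finset.sum_congr rfl fun i _ => ?_
  rw [map_mul, Spc.mem_wt.1 (hy i), map_smul, f.act_map, chr_tor, chr_add, mul_smul_comm,
    smul_mul_assoc, smul_smul, mul_comm (chr e g)]

/-- the properties of the projective bundle of a module with generators `v` -/
structure IsPB {π : Mor X W} (Q : Prj π) (v : ι → B.M) (d : ι → W.J → ℤ) (y : ι → X.R) :
    Prop where
  uniq : ∃ e₀ : Q.E, ∀ e, e = e₀
  card : Fintype.card X.J = Fintype.card W.J + 1
  wt : ∀ i, y i ∈ X.wt (π.ρ (d i) + Q.σ 1)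
  rel : ∀ a : ι → W.R, ∑ i, a i • v i = 0 → ∑ i, π.φ (a i) * y i = 0
  pt : ∀ z : X.Pt, ∃ i, z.1 (y i) ≠ 0
  gen : ∀ T : Subring X.R, (∀ r, π.φ r ∈ T) → (∀ i, y i ∈ T) → ∀ s, s ∈ T
  lift : ∀ (S : Type) [CommRing S] [Algebra ℂ S] [Algebra.FiniteType ℂ S] [IsDomain S]
    (ψ : W.R →ₐ[ℂ] S) (s : ι → S), (∃ c ∈ W.b, ψ c ≠ 0) → (∃ i, s i ≠ 0) →
    (∀ a : ι → W.R, ∑ i, a i • v i = 0 → ∑ i, ψ (a i) * s i = 0) →
    ∃ θ : X.R →ₐ[ℂ] S, (∀ r, θ (π.φ r) = ψ r) ∧ ∀ i, θ (y i) = s i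

section adj

variable [Nonempty ι] (d)

/-- the new coordinates -/
def xv (i : ι) : (W.adj ι d).R := (MvPolynomial.X i : MvPolynomial ι W.R)

theorem xv_mem (i : ι) :
    xv d i ∈ (W.adj ι d).wt ((Mor.adjPr W ι d).ρ (d i) + (Prj.adjPr W ι d).σ 1) := by
  refine (congrArg (fun δ => _ ∈ (W.adj ι d).wt δ) (funext fun j => ?_)).mpr (Spc.X_mem W ι d i)
  cases j
  · exact zero_add (1 : ℤ)
  · exact add_zero (d i _)

/-- evaluation -/
def ev {S : Type} [CommRing S] [Algebra ℂ S] (ψ : W.R →ₐ[ℂ] S) (s : ι → S) :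
    (W.adj ι d).R →ₐ[ℂ] S := MvPolynomial.aevalTower ψ s

theorem ev_φ {S : Type} [CommRing S] [Algebra ℂ S] (ψ : W.R →ₐ[ℂ] S) (s : ι → S) (r : W.R) :
    ev d ψ s ((Mor.adjPr W ι d).φ r) = ψ r := MvPolynomial.aevalTower_C ψ s r

theorem ev_xv {S : Type} [CommRing S] [Algebra ℂ S] (ψ : W.R →ₐ[ℂ] S) (s : ι → S) (i : ι) :
    ev d ψ s (xv d i) = s i := MvPolynomial.aevalTower_X ψ s i

theorem adj_pt' (z : (W.adj ι d).R →ₐ[ℂ] ℂ) : (∃ f ∈ (W.adj ι d).b, z f ≠ 0) ↔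
    (∃ f ∈ W.b, z ((Mor.adjPr W ι d).φ f) ≠ 0) ∧ ∃ i, z (xv d i) ≠ 0 := Spc.adj_pt W ι d z

variable (v) in
/-- the points of the projective bundle -/
def Z : Set (W.adj ι d).Pt :=
  {z | ∀ a : ι → W.R, ∑ i, a i • v i = 0 → z.1 (∑ i, (Mor.adjPr W ι d).φ (a i) * xv d i) = 0}

variable {d}

theorem Z_stab (hv : ∀ i, v i ∈ B.wt (d i)) : (W.adj ι d).Stab (Z v d) := by
  rintro z hz z' ⟨g, hg⟩ a ha
  rw [hg, AlgHom.comp_apply, act_form _ (xv_mem d), map_smul, hz _ (by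
    rw [← act_comb hv, ha, map_zero]), smul_zero]

theorem exists_isPB (hv : ∀ i, v i ∈ B.wt (d i)) :
    ∃ (X : Spc) (π : Mor X W) (Q : Prj π) (y : ι → X.R), IsPB Q v d y := by
  let j := Mor.incl _ _ (Z_stab hv)
  have hj : ∀ s, j.φ s = 0 ↔ s ∈ (W.adj ι d).van (Z v d) := fun s =>
    Ideal.Quotient.eq_zero_iff_mem
  refine ⟨_, (Mor.adjPr W ι d).comp j, (Prj.adjPr W ι d).sub _ (Z_stab hv), fun i => j.φ (xv d i),
    ⟨(), fun _ => rfl⟩, Fintype.card_option, fun i => j.wt_map _ _ (xv_mem d i), fun a ha => ?_,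
    fun z => ((adj_pt' d _).1 (j.onPt z).2).2, fun T h1 h2 s => ?_, fun S _ _ _ _ ψ s h1 h2 h3 => ?_⟩
  · have h := (hj _).2 fun z hz => hz a ha
    rw [map_sum] at h
    simp only [map_mul] at h
    exact h
  · obtain ⟨s, rfl⟩ : ∃ t, j.φ t = s := Ideal.Quotient.mk_surjective s
    induction s using MvPolynomial.induction_on with
    | C r => exact h1 r
    | add p q hp hq => exact (map_add j.φ p q).symm ▸ T.add_mem hp hq
    | mul_X p i hp => exact (map_mul j.φ p (xv d i)).symm ▸ T.mul_mem hp (h2 i)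
  · refine ⟨Ideal.Quotient.liftₐ _ (ev d ψ s) fun t ht => ?_, ev_φ d ψ s, ev_xv d ψ s⟩
    by_contra h0
    obtain ⟨c, hc, hc0⟩ := h1
    obtain ⟨i, hi⟩ := h2
    obtain ⟨w, -, hw⟩ := exists_pt_ne (k := ℂ) (p := (⊥ : Ideal S))
      (a := ev d ψ s t * (ψ c * s i)) (mul_ne_zero h0 (mul_ne_zero hc0 hi))
    rw [map_mul, map_mul, mul_ne_zero_iff, mul_ne_zero_iff] at hw
    refine hw.1 (ht ⟨w.comp (ev d ψ s), (adj_pt' d _).2 ⟨⟨c, hc, ?_⟩, i, ?_⟩⟩ fun a ha => ?_)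
    · rw [AlgHom.comp_apply, ev_φ]
      exact hw.2.1
    · rw [AlgHom.comp_apply, ev_xv]
      exact hw.2.2
    · show w (ev d ψ s _) = 0
      simp only [map_sum (ev d ψ s), map_mul (ev d ψ s), ev_φ, ev_xv, h3 a ha, map_zero]

end adj

variable {π : Mor X W} {Q : Prj π} {y : ι → X.R}

/-- the tautological quotient -/
theorem IsPB.quot (h : IsPB Q v d y) (hs : ∀ x, ∃ a : ι → W.R, ∑ i, a i • v i = x)
    (hv : ∀ i, v i ∈ B.wt (d i)) : ∃ τ : (π.pull B).M →ₗ[X.R] ((one X).shift (Q.σ 1)).M,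
      GMod.IsHom _ _ τ ∧ ∀ z : X.Pt, SurjAt z.1 τ := by
  classical
  let O := (one X).shift (Q.σ 1)
  let o : X.R ≃ₗ[X.R] O.M := (toOne X).trans ((one X).toShift _)
  obtain ⟨t, ht⟩ := exists_desc (g := Fintype.linearCombination W.R v)
    (u := Fintype.linearCombination W.R fun i => π.toRes O (o (y i))) (r := 1) (s := 1)
    (fun a ha => by
      rw [one_smul, Fintype.linearCombination_apply]
      simp only [π.smul_toRes, ← map_smul o, smul_eq_mul, ← map_sum]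
      rw [h.rel a ha, map_zero, map_zero])
    fun x => (hs x).imp fun a ha => ha.trans (one_smul _ x).symm
  have h1 : ∀ a : ι → W.R, (π.toRes O).symm (t (∑ i, a i • v i)) = o (∑ i, π.φ (a i) * y i) :=
    fun a => by
      rw [ht (∑ i, a i • v i) a (one_smul W.R _).symm, one_smul, Fintype.linearCombination_apply]
      simp only [π.smul_toRes, ← map_smul o, smul_eq_mul, ← map_sum, LinearEquiv.symm_apply_apply]
  obtain ⟨τ, hτ⟩ := exists_plift π B (V := O.M)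
    ((π.toRes O).symm.toLinearMap.toAddMonoidHom.comp t.toAddMonoidHom) fun s x =>
      congrArg (π.toRes O).symm (t.map_smul s x)
  have h2 : ∀ a : ι → W.R, τ (pu π B (∑ i, a i • v i)) = o (∑ i, π.φ (a i) * y i) :=
    fun a => (hτ _).trans (h1 a)
  refine ⟨τ, isHom_pu fun g x => ?_, fun z b => ?_⟩
  · obtain ⟨a, rfl⟩ := hs x
    rw [act_comb hv, h2, h2]
    have h3 := congrArg (chr (-Q.σ 1) g • ·) (act_form π h.wt g a)
    simp only [smul_smul, chr_neg_mul, one_smul] at h3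
    exact h3.symm
  · obtain ⟨i, hi⟩ := h.pt z
    obtain ⟨b, rfl⟩ := o.surjective b
    refine ⟨y i, b • pu π B (∑ j, (Pi.single i 1 : ι → W.R) j • v j), hi, ?_⟩
    rw [map_smul, h2, Finset.sum_eq_single i (fun j _ hj => by
      rw [Pi.single_eq_of_ne hj, map_zero, zero_mul]) (fun o => absurd (Finset.mem_univ i) o),
      Pi.single_eq_same, map_one π.φ, one_mul, ← map_smul, ← map_smul, smul_eq_mul, smul_eq_mul,
      mul_comm]

/-- a bundle of positive rank has a nonzero graded map to the ring of a subvariety -/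
theorem exists_hom {r : ℕ} (hB : B.IsBun (r + 1)) {p : Ideal W.R} (hp : (one W).Stab p) {z : W.Pt}
    (hz : ∀ r ∈ p, z.1 r = 0) : ∃ (δ : W.J → ℤ) (u : B.M →ₗ[W.R] W.R ⧸ p), u ≠ 0 ∧
      ∀ γ, ∀ x ∈ B.wt γ, ∀ g, qa hp g (u x) = chr (γ + δ) g • u x := by
  obtain ⟨e, s, t, h1, h2, -⟩ := hB z
  by_contra o
  push Not at o
  have key : ∀ u : (B.hom ((one W).quo p hp)).M, u = 0 := fun u => by
    induction u using GMod.induction with
    | h0 => rfl
    | ha x y hx hy => rw [hx, hy, add_zero]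
    | hw δ u hu =>
      by_contra h0
      obtain ⟨γ, x, hx, g, hg⟩ := o δ u h0
      let u' : B.M →ₗ[W.R] ((one W).quo p hp).M := u
      have h3 : ((one W).quo p hp).act g (u' (B.act g⁻¹ (B.act g x))) = chr δ g • u' (B.act g x) :=
        congrArg (fun w : B.M →ₗ[W.R] ((one W).quo p hp).M => w (B.act g x)) (hu g)
      rw [B.act_inv_act, B.mem_wt.1 hx, u'.map_smul_of_tower, smul_smul, mul_comm, ← chr_add] at h3
      exact hg ((act_toQ hp g _).symm.trans h3)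
  have h4 := LinearMap.congr_fun (show (p.mkQ ∘ₗ LinearMap.proj (0 : Fin (r + 1)) ∘ₗ t :
    B.M →ₗ[W.R] W.R ⧸ p) = 0 from key _) (e fun _ => 1)
  rw [LinearMap.comp_apply, LinearMap.comp_apply, h2] at h4
  exact h1 (hz s (by simpa using (Submodule.Quotient.mk_eq_zero p).1 h4))

theorem IsPB.sec (h : IsPB Q v d y) (hs : ∀ x, ∃ a : ι → W.R, ∑ i, a i • v i = x)
    (hv : ∀ i, v i ∈ B.wt (d i)) {r : ℕ} (hB : B.IsBun (r + 1)) {p : Ideal W.R} [p.IsPrime]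
    (hp : (one W).Stab p) {z : W.Pt} (hz : ∀ r ∈ p, z.1 r = 0) : ∃ (δ : W.J → ℤ) (N : GMod X),
      cls N ∈ Fl X (td ℂ (W.R ⧸ p) + 2) ∧ ∀ n : ℕ, cls (((one W).quo p hp).shift (n • δ)) -
        cls (Q.part (n • 1) N) ∈ Fl W (td ℂ (W.R ⧸ p)) := by
  obtain ⟨δ, u, hu, hw⟩ := exists_hom hB hp hz
  obtain ⟨i, hi⟩ : ∃ i, u (v i) ≠ 0 := by
    by_contra o
    push Not at o
    refine hu (LinearMap.ext fun x => ?_)
    obtain ⟨a, rfl⟩ := hs x
    simp only [map_sum, map_smul, o, smul_zero, Finset.sum_const_zero, LinearMap.zero_apply]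
  haveI : Algebra.FiniteType ℂ (W.R ⧸ p)[X] :=
    Algebra.FiniteType.trans (S := W.R ⧸ p) inferInstance inferInstance
  obtain ⟨θ, h1, h2⟩ := h.lift (W.R ⧸ p)[X] (CAlgHom.comp (Ideal.Quotient.mkₐ ℂ p))
    (fun i => C (u (v i)) * Polynomial.X)
    (z.2.imp fun c hc => ⟨hc.1, fun o => hc.2 (hz c (Ideal.Quotient.eq_zero_iff_mem.1
      (C_eq_zero.1 o)))⟩) ⟨i, mul_ne_zero (C_ne_zero.2 hi) X_ne_zero⟩ fun a ha => by
      have h3 := congrArg (fun x => C (u x) * Polynomial.X) ha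
      simp only [map_sum, map_smul, map_zero, zero_mul, Finset.sum_mul] at h3
      refine (Finset.sum_congr rfl fun i _ => ?_).trans h3
      rw [← mul_assoc]
      exact congrArg (· * Polynomial.X) (C_mul).symm
  obtain ⟨e₀, -⟩ := h.uniq
  haveI : Nonempty Q.E := ⟨e₀⟩
  obtain ⟨a, ha⟩ := Ideal.Quotient.mk_surjective (u (v i))
  refine ⟨δ, PB.sec Q hp δ θ h1 (fun g s n => ?_) (h.wt i) (a := a)
    (fun o => hi (ha ▸ Ideal.Quotient.eq_zero_iff_mem.2 o)) (ha ▸ h2 i)⟩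
  let c := chr (Q.σ 1 - π.ρ δ) g
  let Ψ : (W.R ⧸ p)[X] →+* (W.R ⧸ p)[X] := (compRingHom (C (algebraMap ℂ _ c) * Polynomial.X)).comp
    (mapRingHom (qa hp (tor π.ρ g) : W.R ⧸ p →+* W.R ⧸ p))
  have h3 := h.gen (RingHom.eqLocus (θ.comp (X.act g)).toRingHom (Ψ.comp θ.toRingHom))
    (fun r => ?_) (fun i => ?_) s
  · rw [show θ (X.act g s) = Ψ (θ s) from h3]
    show ((Polynomial.map _ _).comp _).coeff n = _
    rw [comp_C_mul_X_coeff, coeff_map, ← map_pow, mul_comm, ← Algebra.smul_def]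
    rfl
  · show θ (X.act g (π.φ r)) = (Polynomial.map _ (θ (π.φ r))).comp _
    rw [← π.act_map, h1, h1]
    show C _ = (Polynomial.map _ (C _)).comp _
    rw [map_C, C_comp]
    rfl
  · show θ (X.act g (y i)) = (Polynomial.map _ (θ (y i))).comp _
    rw [Spc.mem_wt.1 (h.wt i), map_smul, h2, Polynomial.map_mul, map_C, map_X, mul_comp, C_comp,
      X_comp, ← mul_assoc, ← C_mul, RingHom.coe_coe, hw _ _ (hv i), mul_comm _ (algebraMap ℂ _ c),
      ← Algebra.smul_def, smul_smul, chr_tor, ← chr_add, map_add, ← smul_mul_assoc, smul_C]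
    congr 4
    abel

end con

theorem exists_pb' (hW : W.Free) (hl : Low W) (hp : ∀ {X : Spc} {π : Mor X W} (Q : Prj π),
    Spec Q (push Q) ∧ ∀ a x, push Q (kact X (pullK π a) x) = kact W a (push Q x))
    (B : Bun W) {r : ℕ} (hr : B.rk = r + 1) :
    ∃ (W₁ : Spc) (π : Mor W₁ W) (B₁ : Bun W₁) (e : W₁.J → ℤ), W₁.Free ∧ Dom π ∧ B₁.rk = r ∧
      pullK π B.cls = B₁.cls + line W₁ e := by
  obtain ⟨T, w, hw, hT⟩ := B.M.exists_gens W.R
  let v : Option T → B.M.M := fun i => i.elim 0 Subtype.val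
  let d : Option T → W.J → ℤ := fun i => i.elim 0 fun t => w t
  have hv : ∀ i, v i ∈ B.M.wt (d i) := by
    rintro (_ | t)
    · exact zero_mem _
    · exact hw t t.2
  have hs : ∀ x, ∃ a : Option T → W.R, ∑ i, a i • v i = x := fun x =>
    (Submodule.mem_span_range_iff_exists_fun W.R).1 (Submodule.span_mono
      (fun t ht => ⟨some ⟨t, ht⟩, rfl⟩ : (T : Set B.M.M) ⊆ Set.range v) (hT ▸ Submodule.mem_top))
  obtain ⟨X, π, Q, y, h⟩ := exists_isPB hv
  obtain ⟨τ, h1, h2⟩ := h.quot hs hv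
  have hB : B.M.IsBun (r + 1) := hr ▸ B.free
  have h3 := (isBun_one X).shift (Q.σ 1)
  have h4 := (h1.ses_ker h2).isBun_left (hB.pull π) h3
  obtain ⟨e₀, he⟩ := h.uniq
  have hc : Fintype.card Q.E = 1 := Fintype.card_eq_one_iff.2 ⟨e₀, he⟩
  refine ⟨X, π, ⟨_, r, h4⟩, Q.σ 1, free Q hW, ⟨push Q, (hp Q).2, fun n => ?_⟩, rfl, ?_⟩
  · unfold Fd
    rw [h.card, ← add_assoc]
    refine le_antisymm ?_ ((hp Q).1.onto e₀ he hl (fun p hp' k ⟨z, hz⟩ => h.sec hs hv hB hp' hz) _)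
    rintro _ ⟨x, hx, rfl⟩
    exact (hp Q).1.Fl (hc.symm ▸ hx)
  · rw [pullK_cls, hr, kc_ses (h1.ses_ker h2) h4 h3, kc_eq h4]
    rfl

end Vale.Agent.P297Z.PB
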