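import Vale.Agent.P297Z.Ch.Rk1
import Vale.Agent.P297Z.Ch.PBC
import Vale.Agent.P297Z.K.AP
import Vale.Agent.P297Z.K.Prj

/-!
# P297: the projective bundle of a vector bundle
-/

set_option linter.all false

noncomputable section

namespace Vale.Agent.P297Z

open PowerSeries Finset GMod

variable {W W₁ W₂ X Y : Spc}

theorem exists_pb (hW : W.Free) (B : Bun W) {r : ℕ} (hr : B.rk = r + 1) :
    ∃ (W₁ : Spc) (π : Mor W₁ W) (B₁ : Bun W₁) (e : W₁.J → ℤ), W₁.Free ∧ Dom π ∧ B₁.rk = r ∧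
      pullK π B.cls = B₁.cls + line W₁ e :=
  PB.exists_pb' hW (fun _ _ hx γ => cls_shift_sub_mem hW hx γ)
    (fun Q => ⟨push_spec Q, push_proj Q⟩) B hr

end Vale.Agent.P297Z
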