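import Vale.Agent.P297Z.Ch.Defs
import Vale.Agent.P297Z.K.AK3
import Vale.Agent.P297Z.K.AG
import Vale.Agent.P297Z.K.Rec
import Vale.Agent.P297Z.K.PartT
import Vale.Agent.P297Z.K.Prj

/-!
# P297: the push-forward and the dimension filtration
-/

set_option linter.all false

noncomputable section

namespace Vale.Agent.P297Z.PB

open GMod Dim

variable {W X Y : Spc}

section extr

variable {A Γ E : Type*} [AddCommGroup A] [DecidableEq E] [Finite E] {u : Γ → A →+ A}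
  {h : (E → ℤ) → A} {a : A}

theorem extr_mem (H : AddSubgroup A) (h1 : ∀ γ x, u γ x ∈ H ↔ x ∈ H) (he : Extr u h a)
    {k₀ : E → ℤ} (h0 : ∀ k, k₀ ≤ k → h k ∈ H) : a ∈ H := by
  obtain ⟨F, hF, ⟨k₁, hk⟩, rfl⟩ := he
  let u' : Γ → A ⧸ H →+ A ⧸ H := fun γ => QuotientAddGroup.map H H (u γ) fun x hx => (h1 γ x).2 hx
  have h2 : Rec u' fun k => QuotientAddGroup.mk' H (F k) :=
    hF.map (QuotientAddGroup.mk' H) id fun _ _ => rfl
  have h3 := h2.eq_zero (k₀ := k₀ ⊔ k₁) (fun γ => (injective_iff_map_eq_zero _).2 fun x hx => by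
      obtain ⟨x, rfl⟩ := QuotientAddGroup.mk_surjective x
      exact (QuotientAddGroup.eq_zero_iff _).2 ((h1 γ x).1 ((QuotientAddGroup.eq_zero_iff _).1 hx)))
    fun k hk' => (QuotientAddGroup.eq_zero_iff _).2 (by
      rw [hk k (le_sup_right.trans hk')]
      exact h0 k (le_sup_left.trans hk'))
  exact (QuotientAddGroup.eq_zero_iff _).1 (congrFun h3 0)

theorem extr_const {γ : Γ} (hγ : ∀ x, u γ x = x) (c : A) : Extr u (fun _ : E → ℤ => c) c :=
  ⟨fun _ => c, fun _ => ⟨[γ], funext fun _ => sub_eq_zero.2 (hγ c).symm⟩, ⟨0, fun _ _ => rfl⟩, rfl⟩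

end extr

/-! ### the filtration -/

theorem Fl_mono {d d' : ℕ} (h : d ≤ d') : Fl X d ≤ Fl X d' := by
  refine AddSubgroup.closure_mono ?_
  rintro x ⟨M, hM, rfl⟩
  exact ⟨M, hM.trans_le (by exact_mod_cast h), rfl⟩

theorem cls_mem {M : GMod X} {d : ℕ} (h : ∀ p : Ideal X.R, p.IsPrime →
    Module.annihilator X.R M.M ≤ p → td ℂ (X.R ⧸ p) < d) : cls M ∈ Fl X d :=
  AddSubgroup.subset_closure ⟨M, (dim_quot_lt_iff' (k := ℂ) _ d).2 h, rfl⟩

theorem cls_mem_of_kill {M : GMod X} {d : ℕ} {p : Ideal X.R} [p.IsPrime]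
    (h : ∀ r ∈ p, ∀ m : M.M, r • m = 0) (hd : td ℂ (X.R ⧸ p) < d) : cls M ∈ Fl X d :=
  cls_mem fun q hq h1 => (td_anti fun r hr => h1 (Module.mem_annihilator.2 (h r hr))).trans_lt hd

theorem cls_mem_of_kill' {M : GMod X} {p : Ideal X.R} [p.IsPrime]
    (h : ∀ r ∈ p, ∀ m : M.M, r • m = 0) {a : X.R} (ha : a ∉ p) (h' : ∀ m : M.M, a • m = 0) :
    cls M ∈ Fl X (td ℂ (X.R ⧸ p)) :=
  cls_mem fun q hq h1 => td_lt (lt_of_le_of_ne (fun r hr => h1 (Module.mem_annihilator.2 (h r hr)))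
    fun e => ha (e ▸ h1 (Module.mem_annihilator.2 h')))

theorem quo_kill {p : Ideal X.R} (hp : (one X).Stab p) (γ : X.J → ℤ) :
    ∀ r ∈ p, ∀ m : (((one X).quo p hp).shift γ).M, r • m = 0 := fun r hr m => by
  obtain ⟨m, rfl⟩ := Submodule.Quotient.mk_surjective p m
  exact (Submodule.Quotient.mk_eq_zero p).2 (p.mul_mem_right m hr)

/-- devissage for the filtration -/
theorem Fl_le {H : AddSubgroup (G X)} {d : ℕ}
    (h : ∀ (p : Ideal X.R) (hp : (one X).Stab p) (γ : X.J → ℤ), p.IsPrime → td ℂ (X.R ⧸ p) < d →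
      (∃ z : X.Pt, ∀ r ∈ p, z.1 r = 0) → cls (((one X).quo p hp).shift γ) ∈ H) : Fl X d ≤ H := by
  refine (AddSubgroup.closure_le H).2 ?_
  rintro x ⟨M, hM, rfl⟩
  exact cls_mem_of_prime M fun p hp γ h1 h2 h3 =>
    h p hp γ h1 ((dim_quot_lt_iff' (k := ℂ) _ d).1 hM p h1 h2) h3

theorem line_mem {d : ℕ} (γ : X.J → ℤ) {x : G X} (hx : x ∈ Fl X d) :
    kact X (line X γ) x ∈ Fl X d := by
  refine (AddSubgroup.closure_le ((Fl X d).comap (kact X (line X γ)))).2 ?_ hx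
  rintro x ⟨M, hM, rfl⟩
  exact AddSubgroup.subset_closure ⟨M.shift γ, hM, kact_line γ M⟩

theorem line_inv (γ : X.J → ℤ) (x : G X) : kact X (line X (-γ)) (kact X (line X γ) x) = x := by
  rw [← kact_mul, line_neg_mul, kact_one]

theorem line_mem_iff {d : ℕ} (γ : X.J → ℤ) (x : G X) :
    kact X (line X γ) x ∈ Fl X d ↔ x ∈ Fl X d :=
  ⟨fun h => line_inv γ x ▸ line_mem (-γ) h, line_mem γ⟩

theorem twi (X : Spc) : Twi fun γ => kact X (line X γ) :=
  ⟨fun γ => Function.bijective_iff_has_inverse.2 ⟨kact X (line X (-γ)), line_inv γ,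
    fun x => (kact_comm _ _ x).trans (line_inv γ x)⟩, fun _ _ => kact_comm _ _⟩

variable {f : Mor X Y}

/-- the characteristic property of the push-forward -/
def Spec (P : Prj f) (p : G X →+ G Y) : Prop :=
  ∀ M : GMod X, Extr (fun γ => kact Y (line Y γ)) (fun k => cls (P.part k M)) (p (cls M))

theorem Spec.mem {P : Prj f} {p : G X →+ G Y} (hs : Spec P p) {M : GMod X} {d : ℕ} {c : G Y}
    {k₀ : P.E → ℤ} (h : ∀ k, k₀ ≤ k → cls (P.part k M) - c ∈ Fl Y d) : p (cls M) - c ∈ Fl Y d :=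
  extr_mem (u := fun γ => kact Y (line Y γ)) (Fl Y d) line_mem_iff
    ((hs M).sub (twi Y) (extr_const (γ := 0) (fun x => by rw [line_zero, kact_one]) c)) h

theorem mem_of_sum {J V ι : Type} [Fintype J] [AddCommGroup V] [Module ℂ V]
    {a : (J → ℂˣ) → V →ₗ[ℂ] V} (h : ⨆ γ, wt a γ = ⊤) (S : Submodule ℂ V)
    (hS : ∀ g, ∀ v ∈ S, a g v ∈ S) {s : Finset ι} {t : ι → V} {w : ι → J → ℤ}
    (ht : ∀ i, t i ∈ wt a (w i)) (hw : Function.Injective w) (hs : ∑ i ∈ s, t i ∈ S) {i : ι}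
    (hi : i ∈ s) : t i ∈ S := by
  have h4 := cmp_mem_stab h S hS hs (w i)
  rwa [map_sum, Finset.sum_eq_single i (fun j _ hne => cmp_of_ne _ (hw.ne hne) (ht j))
    (fun h => absurd hi h), cmp_of_mem _ (ht i)] at h4

/-- the new coordinates are algebraically independent over the base -/
theorem td_add_card (P : Prj f) {q : Ideal X.R} [q.IsPrime] (hq : (one X).Stab q) {z : X.Pt}
    (hz : ∀ r ∈ q, z.1 r = 0) :
    td ℂ (Y.R ⧸ q.comap f.φ) + Fintype.card P.E ≤ td ℂ (X.R ⧸ q) := by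
  classical
  choose y hy hy0 using ((P.pts z.1).1 z.2).2
  choose γ hγ using fun e => P.y_wt e (y e) (hy e)
  let ψ := Ideal.quotientMapₐ q f.φ le_rfl
  letI : Algebra (Y.R ⧸ q.comap f.φ) (X.R ⧸ q) := ψ.toRingHom.toAlgebra
  haveI : IsScalarTower ℂ (Y.R ⧸ q.comap f.φ) (X.R ⧸ q) :=
    IsScalarTower.of_algebraMap_eq fun c => (ψ.commutes c).symm
  have hi : Function.Injective (algebraMap (Y.R ⧸ q.comap f.φ) (X.R ⧸ q)) :=
    Ideal.quotientMap_injective
  haveI : FaithfulSMul (Y.R ⧸ q.comap f.φ) (X.R ⧸ q) :=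
    (faithfulSMul_iff_algebraMap_injective _ _).2 hi
  refine td_add_card_le (x := fun e => Ideal.Quotient.mk q (y e)) ?_
  refine algebraicIndependent_iff.2 fun F hF => ?_
  obtain ⟨F, rfl⟩ := MvPolynomial.map_surjective (Ideal.Quotient.mk (q.comap f.φ))
    Ideal.Quotient.mk_surjective F
  let t : (P.E →₀ ℕ) → X.R := fun m => f.φ (F.coeff m) * ∏ e, y e ^ m e
  have h1 : ∑ m ∈ F.support, t m ∈ q := by
    rw [← Ideal.Quotient.eq_zero_iff_mem, ← hF, MvPolynomial.aeval_def, MvPolynomial.eval₂_map,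
      MvPolynomial.eval₂_eq', map_sum]
    refine Finset.sum_congr rfl fun m _ => ?_
    simp only [t, map_mul, map_prod, map_pow]
    rfl
  have h2 : ∀ m, t m ∈ wt (P.actE (one X)) fun e => (m e : ℤ) := fun m => by
    refine P.smul_mem_wtE (M := one X) _ ?_
    have h3 := P.mem_wtE (M := one X)
      (Spc.prod_mem Finset.univ fun e _ => Spc.pow_mem (hγ e) (m e))
    rw [map_sum] at h3
    simp only [map_nsmul, P.π_add] at h3
    have h4 : (∑ x, m x • (Pi.single x 1 : P.E → ℤ)) = fun e => (m e : ℤ) := by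
      ext e
      simp [Finset.sum_apply, Pi.single_apply]
    exact h4 ▸ h3
  refine MvPolynomial.ext _ _ fun m => ?_
  rw [MvPolynomial.coeff_map, MvPolynomial.coeff_zero, Ideal.Quotient.eq_zero_iff_mem]
  by_cases hm : m ∈ F.support
  · have h4 : t m ∈ q := mem_of_sum (P.spanE (one X))
      (Submodule.restrictScalars ℂ q : Submodule ℂ X.R) (fun g v hv => hq _ v hv) h2
      (fun m m' e => Finsupp.ext fun e' => Int.ofNat_inj.1 (congrFun e e')) h1 hm
    refine ((‹q.IsPrime›.mem_or_mem h4).resolve_right fun h5 => ?_)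
    have h6 := hz _ h5
    rw [map_prod] at h6
    obtain ⟨e, -, he⟩ := Finset.prod_eq_zero_iff.1 h6
    rw [map_pow] at he
    exact hy0 e (eq_zero_of_pow_eq_zero he)
  · rw [MvPolynomial.notMem_support_iff.1 hm]
    exact zero_mem _

/-- the push-forward does not raise the dimension -/
theorem Spec.Fl {P : Prj f} {p : G X →+ G Y} (hs : Spec P p) {d : ℕ} {x : G X}
    (hx : x ∈ Fl X (d + Fintype.card P.E)) : p x ∈ Fl Y d := by
  refine Fl_le (H := (P297Z.Fl Y d).comap p) (fun q hq γ h1 h2 ⟨z, hz⟩ => ?_) hx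
  have h3 := hs.mem (M := ((one X).quo q hq).shift γ) (d := d) (c := 0) (k₀ := 0) fun k _ => by
    rw [sub_zero]
    refine cls_mem_of_kill (p := q.comap f.φ) (fun r hr m => P.val_inj ?_) ?_
    · rw [P.val_smul, map_zero]
      exact quo_kill hq γ _ hr _
    · have := td_add_card P hq hz
      omega
  rwa [sub_zero] at h3

theorem free (P : Prj f) (hY : Y.Free) : X.Free := fun z => by
  classical
  let H := AddSubgroup.closure {γ : X.J → ℤ | ∃ r ∈ X.wt γ, z.1 r ≠ 0}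
  have h1 : ∀ γ, f.ρ γ ∈ H := fun γ => by
    have h2 : γ ∈ AddSubgroup.closure {γ : Y.J → ℤ | ∃ r ∈ Y.wt γ, (f.onPt z).1 r ≠ 0} :=
      (hY (f.onPt z)).symm ▸ AddSubgroup.mem_top γ
    refine (AddSubgroup.closure_le (H.comap f.ρ)).2 ?_ h2
    rintro δ ⟨r, hr, h0⟩
    exact AddSubgroup.subset_closure ⟨f.φ r, f.wt_map δ r hr, h0⟩
  have h2 : ∀ e, P.σ (Pi.single e 1) ∈ H := fun e => by
    obtain ⟨a, ha, h0⟩ := ((P.pts z.1).1 z.2).2 e
    obtain ⟨γ, hγ⟩ := P.y_wt e a ha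
    have h3 : f.ρ γ + P.σ (Pi.single e 1) ∈ H := AddSubgroup.subset_closure ⟨a, hγ, h0⟩
    exact (H.add_mem_cancel_left (h1 γ)).1 h3
  refine eq_top_iff.2 fun δ _ => ?_
  rw [← P.tot δ]
  refine H.add_mem (h1 _) ?_
  have e : P.π δ = ∑ e, P.π δ e • (Pi.single e 1 : P.E → ℤ) := by
    ext k
    simp [Finset.sum_apply, Pi.single_apply]
  rw [e, map_sum]
  exact H.sum_mem fun e _ => by rw [map_zsmul]; exact H.zsmul_mem (h2 e) _

end Vale.Agent.P297Z.PB
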