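import Vale.Agent.P297Z.Ch.PBA

/-!
# P297: a rational section of a projective map gives a preimage of the fundamental class
-/

set_option linter.all false

noncomputable section

namespace Vale.Agent.P297Z.PB

open GMod Dim Polynomial

variable {W X Y : Spc} {f : Mor X Y}

/-- the action of the torus on the quotient by a graded ideal -/
def qa {p : Ideal Y.R} (hp : (one Y).Stab p) (g : Y.J → ℂˣ) : Y.R ⧸ p →ₐ[ℂ] Y.R ⧸ p :=
  Ideal.quotientMapₐ p (Y.act g) fun r hr => hp g r hr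

theorem qa_mk {p : Ideal Y.R} (hp : (one Y).Stab p) (g : Y.J → ℂˣ) (r : Y.R) :
    qa hp g (Ideal.Quotient.mk p r) = Ideal.Quotient.mk p (Y.act g r) := rfl

theorem qa_one {p : Ideal Y.R} (hp : (one Y).Stab p) (x : Y.R ⧸ p) : qa hp 1 x = x := by
  obtain ⟨r, rfl⟩ := Ideal.Quotient.mk_surjective x
  rw [qa_mk, Y.act_one]

/-- the identity map from the quotient ring to the quotient module -/
def toQ {p : Ideal Y.R} (hp : (one Y).Stab p) : (Y.R ⧸ p) ≃ₗ[Y.R] ((one Y).quo p hp).M :=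
  LinearEquiv.refl Y.R (Y.R ⧸ p)

theorem act_toQ {p : Ideal Y.R} (hp : (one Y).Stab p) (g : Y.J → ℂˣ) (x : Y.R ⧸ p) :
    ((one Y).quo p hp).act g (toQ hp x) = toQ hp (qa hp g x) := by
  obtain ⟨r, rfl⟩ := Ideal.Quotient.mk_surjective x
  rfl

theorem toQ_csmul {p : Ideal Y.R} (hp : (one Y).Stab p) (c : ℂ) (x : Y.R ⧸ p) :
    toQ hp (c • x) = c • toQ hp x := rfl

theorem toQ_mem {p : Ideal Y.R} (hp : (one Y).Stab p) {γ : Y.J → ℤ} {r : Y.R} (hr : r ∈ Y.wt γ) :
    toQ hp (Ideal.Quotient.mk p r) ∈ ((one Y).quo p hp).wt γ :=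
  (isHom_mkQ (one Y) p hp).map_wt hr

theorem td_poly {A : Type} [CommRing A] [Algebra ℂ A] [Algebra.FiniteType ℂ A] [IsDomain A] :
    td ℂ A[X] = td ℂ A + 1 := by
  haveI : Algebra.FiniteType ℂ (MvPolynomial Unit A) :=
    Algebra.FiniteType.trans (S := A) inferInstance inferInstance
  rw [← td_eq_of_equiv ((MvPolynomial.uniqueAlgEquiv A Unit).restrictScalars ℂ), td_mvPolynomial,
    Fintype.card_unit]

theorem sec (P : Prj f) [Nonempty P.E] {p : Ideal Y.R} [hpp : p.IsPrime] (hp : (one Y).Stab p)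
    (δ : Y.J → ℤ) (θ : X.R →ₐ[ℂ] (Y.R ⧸ p)[X])
    (hφ : ∀ r, θ (f.φ r) = C (Ideal.Quotient.mk p r))
    (hθ : ∀ g s n, (θ (X.act g s)).coeff n =
      chr (P.σ 1 - f.ρ δ) g ^ n • qa hp (tor f.ρ g) ((θ s).coeff n))
    {y : X.R} {γ : Y.J → ℤ} (hy : y ∈ X.wt (f.ρ γ + P.σ 1)) {a : Y.R} (ha : a ∉ p)
    (hya : θ y = C (Ideal.Quotient.mk p a) * Polynomial.X) :
    ∃ N : GMod X, cls N ∈ Fl X (td ℂ (Y.R ⧸ p) + 2) ∧ ∀ n : ℕ,
      cls (((one Y).quo p hp).shift (n • δ)) - cls (P.part (n • 1) N) ∈ Fl Y (td ℂ (Y.R ⧸ p)) := by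
  have hq : (one X).Stab (RingHom.ker θ) := fun g s hs => Polynomial.ext fun n => by
    have h0 : θ s = 0 := hs
    refine (hθ g s n).trans ?_
    rw [h0, coeff_zero, map_zero, smul_zero]
  haveI : (RingHom.ker θ).IsPrime := RingHom.ker_isPrime θ
  haveI : Algebra.FiniteType ℂ (Y.R ⧸ p)[X] :=
    Algebra.FiniteType.trans (S := Y.R ⧸ p) inferInstance inferInstance
  refine ⟨(one X).quo _ hq, cls_mem_of_kill (p := RingHom.ker θ) (fun r hr m => ?_) ?_, fun n => ?_⟩
  · exact quo_kill hq 0 r hr m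
  · have := td_le_of_injective _ (Ideal.kerLiftAlg_injective θ)
    rw [td_poly] at this
    omega
  let T : ((one X).quo _ hq).M →ₗ[ℂ] (Y.R ⧸ p)[X] :=
    (Ideal.kerLiftAlg θ).toLinearMap ∘ₗ ((toQ hq).symm.toLinearMap.restrictScalars ℂ)
  have hT : ∀ s, T (toQ hq (Ideal.Quotient.mk _ s)) = θ s := fun _ => rfl
  have hs : ∀ m : ((one X).quo _ hq).M, ∃ s, toQ hq (Ideal.Quotient.mk _ s) = m := fun m =>
    Ideal.Quotient.mk_surjective (I := RingHom.ker θ) m
  have hT1 : ∀ r m, T (r • m) = θ r * T m := fun r m => by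
    obtain ⟨s, rfl⟩ := hs m
    exact map_mul θ r s
  have hT2 : ∀ g m n, (T (((one X).quo _ hq).act g m)).coeff n =
      chr (P.σ 1 - f.ρ δ) g ^ n • qa hp (tor f.ρ g) ((T m).coeff n) := fun g m n => by
    obtain ⟨s, rfl⟩ := hs m
    exact hθ g s n
  let A := (one Y).quo p hp
  let L : (P.part (n • 1) ((one X).quo _ hq)).M →ₗ[Y.R] (A.shift (n • δ)).M :=
    { toFun := fun m => A.toShift _ (toQ hp ((T (P.val m)).coeff n))
      map_add' := fun a b => by simp only [map_add, coeff_add]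
      map_smul' := fun r m => by
        rw [P.val_smul, hT1, hφ, coeff_C_mul, RingHom.id_apply, ← map_smul, ← map_smul]
        rfl }
  have hL : ∀ m, L m = A.toShift _ (toQ hp ((T (P.val m)).coeff n)) := fun _ => rfl
  have h1 : GMod.IsHom _ _ L := fun g m => by
    rw [hL, hL, P.val_act, hT2, act_toShift, act_toQ, P.tor_ret, chr_tor, map_sub, P.ret_σ,
      P.ret_ρ, zero_sub, ← chr_nsmul, smul_neg, toQ_csmul, toShift_smul]
  have h2 : Function.Injective L := (injective_iff_map_eq_zero _).2 fun m hm => by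
    have h3 : (T (P.val m)).coeff n = 0 := hm
    refine P.val_inj ((toQ hq).symm.injective (Ideal.kerLiftAlg_injective θ ?_))
    refine (?_ : T (P.val m) = 0).trans (map_zero T).symm
    refine Polynomial.ext fun j => ?_
    by_cases e : j = n
    · rw [e, h3, coeff_zero]
    obtain ⟨h, hh⟩ := chr_sep (γ := j • (1 : P.E → ℤ)) (δ := n • 1) fun o => e (by
      simpa using congrFun o (Classical.arbitrary P.E))
    have h4 := hT2 (tor P.π h) (P.val m) j
    have h5 : ((one X).quo _ hq).act (tor P.π h) (P.val m) = _ := P.val_mem m h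
    have h6 : tor f.ρ (tor P.π h) = 1 := chr_ext fun γ => by
      rw [chr_tor, chr_tor, P.π_ρ, chr_zero, chr_one]
    rw [h5, h6, qa_one, chr_tor, map_sub, P.π_σ, P.π_ρ, sub_zero, ← chr_nsmul, map_smul,
      coeff_smul, ← sub_eq_zero, ← sub_smul] at h4
    rw [(smul_eq_zero.1 h4).resolve_left (sub_ne_zero.2 hh.symm), coeff_zero]
  rw [cls_ses (h1.ses_coker fun z => .of_inj h2), add_sub_cancel_left]
  refine cls_mem_of_kill' (fun r hr m => ?_) (a := a ^ n) (fun o => ha (hpp.mem_of_pow_mem n o))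
    fun m => ?_
  · obtain ⟨m, rfl⟩ := (LinearMap.range L).mkQ_surjective m
    exact (map_smul (LinearMap.range L).mkQ r m).symm.trans
      ((congrArg _ (quo_kill hp _ r hr m)).trans (map_zero _))
  · obtain ⟨m, rfl⟩ := (LinearMap.range L).mkQ_surjective m
    refine (map_smul (LinearMap.range L).mkQ _ m).symm.trans
      ((Submodule.Quotient.mk_eq_zero _).2 ?_)
    obtain ⟨b, hb⟩ := Ideal.Quotient.mk_surjective (I := p) ((toQ hp).symm ((A.toShift _).symm m))
    have h3 := P.mem_wtE (toQ_mem hq (Spc.pow_mem hy n))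
    rw [map_nsmul, P.π_add] at h3
    refine ⟨b • P.el _ h3, ?_⟩
    rw [map_smul, hL, P.val_el, hT, map_pow, hya, mul_pow, ← C_pow, coeff_C_mul, coeff_X_pow_self,
      mul_one, ← (A.toShift _).apply_symm_apply m, ← (toQ hp).apply_symm_apply
        ((A.toShift _).symm m), ← hb, ← map_smul, ← map_smul, ← map_smul, ← map_smul, ← map_pow]
    exact congrArg (fun x => A.toShift _ (toQ hp (Ideal.Quotient.mk p x))) (mul_comm b (a ^ n))

/-- the hypothesis on the twists -/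
def Low (Y : Spc) : Prop :=
  ∀ (d : ℕ) (x : G Y), x ∈ Fl Y (d + 1) → ∀ γ, x - kact Y (line Y γ) x ∈ Fl Y d

theorem Low.quo (hY : Low Y) {p : Ideal Y.R} [p.IsPrime] (hp : (one Y).Stab p) (γ δ : Y.J → ℤ) :
    cls (((one Y).quo p hp).shift γ) - cls (((one Y).quo p hp).shift δ) ∈
      Fl Y (td ℂ (Y.R ⧸ p)) := by
  have h := hY _ _ (cls_mem_of_kill (quo_kill hp γ) (Nat.lt_succ_self _)) (δ - γ)
  rwa [kact_line, cls_shift_shift, add_sub_cancel] at h

/-- the push-forward is onto on every level if there are enough rational sections -/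
theorem Spec.onto {P : Prj f} {π : G X →+ G Y} (hs : Spec P π) (e₀ : P.E) (he : ∀ e, e = e₀)
    (hY : Low Y) (h : ∀ (p : Ideal Y.R) (hp : (one Y).Stab p), p.IsPrime →
      (∃ z : Y.Pt, ∀ r ∈ p, z.1 r = 0) → ∃ (δ : Y.J → ℤ) (N : GMod X),
      cls N ∈ P297Z.Fl X (td ℂ (Y.R ⧸ p) + 2) ∧ ∀ n : ℕ, cls (((one Y).quo p hp).shift (n • δ)) -
        cls (P.part (n • 1) N) ∈ P297Z.Fl Y (td ℂ (Y.R ⧸ p))) (d : ℕ) :
    P297Z.Fl Y d ≤ (P297Z.Fl X (d + 1)).map π := by
  induction d using Nat.strong_induction_on with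
  | _ d ih =>
    refine Fl_le fun p hp γ h1 h2 h3 => ?_
    obtain ⟨δ, N, h4, h5⟩ := h p hp h1 h3
    have h6 := hs.mem (M := N) (c := cls (((one Y).quo p hp).shift γ)) (k₀ := 0) fun k hk => by
      have e : k = (k e₀).toNat • (1 : P.E → ℤ) := funext fun e => by
        have : 0 ≤ k e₀ := hk e₀
        rw [he e, Pi.smul_apply, Pi.one_apply, nsmul_eq_mul, mul_one, Int.toNat_of_nonneg this]
      have h7 := sub_mem (hY.quo hp ((k e₀).toNat • δ) γ) (h5 (k e₀).toNat)
      rwa [sub_sub_sub_cancel_left, ← e] at h7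
    have h7 := sub_mem (AddSubgroup.mem_map_of_mem π (Fl_mono (by omega : _ ≤ d + 1) h4))
      (AddSubgroup.map_mono (Fl_mono (by omega : _ ≤ d + 1)) (ih _ h2 h6))
    rwa [sub_sub_cancel] at h7

end Vale.Agent.P297Z.PB
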