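import Vale.Agent.P297Z.Ch.Lam
import Vale.Agent.P297Z.K.Flt0
import Vale.Agent.P297Z.K.AK

/-!
# P297: line bundles lower the dimension; dominant maps
-/

set_option linter.all false

noncomputable section

namespace Vale.Agent.P297Z

open PowerSeries Finset GMod

variable {W W₁ W₂ X Y : Spc}

theorem cls_shift_sub_mem (hW : W.Free) {d : ℕ} {x : G W} (hx : x ∈ Fl W (d + 1)) (γ : W.J → ℤ) :
    x - kact W (line W γ) x ∈ Fl W d := by
  refine Rk.Fl_le (H := (Fl W d).comap (AddMonoidHom.id _ - kact W (line W γ)))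
    (fun p hp δ z h1 h2 hz => ?_) hx
  let S : AddSubgroup (W.J → ℤ) :=
    { carrier := {γ | ∀ δ, cls (((one W).quo p hp).shift δ) -
        cls (((one W).quo p hp).shift (δ + γ)) ∈ Fl W d}
      zero_mem' := fun δ => by rw [add_zero, sub_self]; exact zero_mem _
      add_mem' := fun {a b} ha hb δ => by
        have := add_mem (ha δ) (hb (δ + a))
        rwa [sub_add_sub_cancel, add_assoc] at this
      neg_mem' := fun {a} ha δ => by
        have := neg_mem (ha (δ + -a))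
        rwa [neg_sub, neg_add_cancel_right] at this }
  have h3 : AddSubgroup.closure {γ : W.J → ℤ | ∃ r ∈ W.wt γ, z.1 r ≠ 0} ≤ S := by
    refine (AddSubgroup.closure_le _).2 ?_
    rintro γ ⟨r, hr, h0⟩ δ
    have hrp : r ∉ p := fun h => h0 (hz r h)
    have hf : (((one W).quo p hp).shift δ).IsHom (((one W).quo p hp).shift (δ + γ))
        (LinearMap.lsmul W.R (W.R ⧸ p) r) := isHom_of_wt fun ε m hm => by
      have := smul_mem_wt hr (mem_shift_wt.1 hm)
      rw [add_comm, add_assoc] at this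
      exact mem_shift_wt.2 this
    haveI : Subsingleton hf.kerM.M := subsingleton_of_forall_eq 0 fun a => Subtype.ext (by
      obtain ⟨a, ha⟩ := a
      obtain ⟨a, rfl⟩ := Ideal.Quotient.mk_surjective (I := p) a
      exact Ideal.Quotient.eq_zero_iff_mem.2
        ((h1.mem_or_mem (Ideal.Quotient.eq_zero_iff_mem.1 ha)).resolve_left hrp))
    rw [cls_sub_cls hf, cls_subsingleton, zero_sub]
    refine neg_mem (Rk.cls_mem fun q hq h4 => ?_)
    refine (Dim.td_lt (k := ℂ) (lt_of_le_of_ne (fun a ha => h4 ?_)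
      fun e : p = q => hrp (e ▸ h4 ?_))).trans_le (Nat.lt_succ_iff.1 h2) <;> refine Module.mem_annihilator.2 fun m => ?_ <;>
      obtain ⟨m, rfl⟩ := Submodule.Quotient.mk_surjective _ m
    · obtain ⟨m, rfl⟩ := Ideal.Quotient.mk_surjective (I := p) m
      exact (Submodule.Quotient.mk_eq_zero _).2 ⟨0, (map_zero _).trans
        (Ideal.Quotient.eq_zero_iff_mem.2 (p.mul_mem_right m ha)).symm⟩
    · exact (Submodule.Quotient.mk_eq_zero _).2 ⟨m, rfl⟩
  have h4 := h3 ((hW z).ge (AddSubgroup.mem_top γ)) δ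
  rwa [← cls_shift_shift, ← kact_line γ] at h4

theorem one_sub_line_mem_FF (γ : X.J → ℤ) : 1 - line X γ ∈ FF X 1 := fun W f hW d x hx => by
  rw [map_sub, map_one, pullK_line, map_sub, AddMonoidHom.sub_apply, kact_one]
  exact cls_shift_sub_mem hW hx _

theorem mem_FF_iff {a : K0 X} {j : ℕ} : a ∈ FF X j ↔ ∀ (W : Spc) (f : Mor W X), W.Free → ∀ d,
    ∀ x ∈ Fd W (d + j), kact W (pullK f a) x ∈ Fd W d := by
  refine ⟨fun h W f hW d x hx => h W f hW _ x (by rwa [add_right_comm]),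
    fun h W f hW d x hx => ?_⟩
  rcases le_total (Fintype.card W.J) d with h1 | h1
  · obtain ⟨d, rfl⟩ := Nat.exists_eq_add_of_le' h1
    exact h W f hW d x (by rwa [add_right_comm] at hx)
  · exact bot_le (a := Fl W d) (Rk.Fd_zero hW (h W f hW 0 x (Rk.Fl_mono (by omega) hx)))

theorem Dom.id (W : Spc) : Dom (Mor.id W) :=
  ⟨AddMonoidHom.id _, fun a g => by rw [pullK_id]; rfl, fun _ => AddSubgroup.map_id _⟩

theorem Dom.comp {π : Mor W₁ W} {π' : Mor W₂ W₁} (h : Dom π) (h' : Dom π') : Dom (π.comp π') := by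
  obtain ⟨p, h1, h2⟩ := h
  obtain ⟨p', h3, h4⟩ := h'
  exact ⟨p.comp p', fun a g => by
    rw [pullK_comp, AddMonoidHom.comp_apply, h3, h1, AddMonoidHom.comp_apply],
    fun d => by rw [← AddSubgroup.map_map, h4, h2]⟩

theorem Dom.low {π : Mor W₁ W} (h : Dom π) {a : K0 W} {d e : ℕ}
    (H : ∀ y ∈ Fd W₁ e, kact W₁ (pullK π a) y ∈ Fd W₁ d) : ∀ x ∈ Fd W e, kact W a x ∈ Fd W d := by
  obtain ⟨p, h1, h2⟩ := h
  rw [← h2, ← h2]
  rintro _ ⟨y, hy, rfl⟩
  exact ⟨_, H y hy, h1 a y⟩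

end Vale.Agent.P297Z
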