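import Mathlib

/-!
# P297: the filtration of an exterior power attached to a submodule
-/

open scoped TensorProduct

noncomputable section

namespace Vale.Agent.P297Z.Wh

open exteriorPower

variable {R A B T : Type} [CommRing R] [AddCommGroup A] [Module R A] [AddCommGroup B] [Module R B]
  [AddCommGroup T] [Module R T]

theorem ext_induction {n : ℕ} {P : ⋀[R]^n B → Prop} (h1 : ∀ v, P (ιMulti R n v)) (h0 : P 0)
    (ha : ∀ x y, P x → P y → P (x + y)) (hs : ∀ (r : R) x, P x → P (r • x)) (x : ⋀[R]^n B) :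
    P x := by
  have hx : x ∈ Submodule.span R (Set.range (ιMulti R n (M := B))) := by
    rw [ιMulti_span]; trivial
  induction hx using Submodule.span_induction with
  | mem x hx => obtain ⟨v, rfl⟩ := hx; exact h1 v
  | zero => exact h0
  | add x y _ _ hx hy => exact ha x y hx hy
  | smul r x _ hx => exact hs r x hx

/-- the span of the products with at least `i` factors in `N` -/
def Fil (N : Submodule R B) (n i : ℕ) : Submodule R (⋀[R]^n B) :=
  Submodule.span R {x | ∃ (v : Fin n → B) (s : Finset (Fin n)), i ≤ s.card ∧ (∀ k ∈ s, v k ∈ N) ∧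
    x = ιMulti R n v}

theorem mem_fil {N : Submodule R B} {n i : ℕ} (v : Fin n → B) (s : Finset (Fin n))
    (h1 : i ≤ s.card) (h2 : ∀ k ∈ s, v k ∈ N) : ιMulti R n v ∈ Fil N n i :=
  Submodule.subset_span ⟨v, s, h1, h2, rfl⟩

theorem fil_zero (N : Submodule R B) (n : ℕ) : Fil N n 0 = ⊤ :=
  eq_top_iff.2 fun x _ => ext_induction (P := fun x => x ∈ Fil N n 0)
    (fun v => mem_fil v ∅ le_rfl (by simp)) (zero_mem _) (fun _ _ => add_mem)
    (fun r _ => Submodule.smul_mem _ r) x

theorem fil_top (N : Submodule R B) (n : ℕ) : Fil N n (n + 1) = ⊥ := by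
  refine Submodule.span_eq_bot.2 ?_
  rintro _ ⟨v, s, h, -, rfl⟩
  have := s.card_le_univ
  rw [Fintype.card_fin] at this
  omega

theorem fil_anti (N : Submodule R B) (n i : ℕ) : Fil N n (i + 1) ≤ Fil N n i :=
  Submodule.span_mono fun _ ⟨v, s, h1, h2, h3⟩ => ⟨v, s, by omega, h2, h3⟩

theorem exists_desc (N : Submodule R B) {j : ℕ} (u : ⋀[R]^j B →ₗ[R] T)
    (hu : ∀ v k, v k ∈ N → u (ιMulti R j v) = 0) :
    ∃ w : ⋀[R]^j (B ⧸ N) →ₗ[R] T, ∀ v, w (ιMulti R j (N.mkQ ∘ v)) = u (ιMulti R j v) := by
  classical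
  let F := u.compAlternatingMap (ιMulti R j)
  have key : ∀ v w : Fin j → B, (∀ k, N.mkQ (v k) = N.mkQ (w k)) → F v = F w := fun v w h => by
    have e : v = (v - w) + w := (sub_add_cancel v w).symm
    rw [e, F.map_add_univ, Finset.sum_eq_single ∅, Finset.piecewise_empty]
    · intro s _ hs
      obtain ⟨k, hk⟩ := Finset.nonempty_iff_ne_empty.2 hs
      refine hu _ k ?_
      rw [Finset.piecewise_eq_of_mem _ _ _ hk]
      exact (Submodule.Quotient.eq N).1 (h k)
    · simp
  choose s hs using N.mkQ_surjective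
  have up : ∀ [DecidableEq (Fin j)] (v : Fin j → B ⧸ N) (i : Fin j) (x : B),
      F (fun k => s (Function.update v i (N.mkQ x) k)) =
        F (Function.update (fun k => s (v k)) i x) := fun v i x => key _ _ fun k => by
    rw [hs]
    by_cases h : k = i
    · subst h; simp
    · rw [Function.update_of_ne h, Function.update_of_ne h, hs]
  let G : (B ⧸ N) [⋀^Fin j]→ₗ[R] T :=
    { toFun := fun v => F fun k => s (v k)
      map_update_add' := fun v i x y => by
        obtain ⟨x, rfl⟩ := N.mkQ_surjective x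
        obtain ⟨y, rfl⟩ := N.mkQ_surjective y
        rw [← map_add, up, up, up]
        exact F.map_update_add _ i x y
      map_update_smul' := fun v i r x => by
        obtain ⟨x, rfl⟩ := N.mkQ_surjective x
        rw [← map_smul, up, up]
        exact F.map_update_smul _ i r x
      map_eq_zero_of_eq' := fun v i k h hik => F.map_eq_zero_of_eq _ (congrArg s h) hik }
  refine ⟨alternatingMapLinearEquiv G, fun v => ?_⟩
  rw [alternatingMapLinearEquiv_apply_ιMulti]
  exact key _ _ fun k => hs _

/-- the product -/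
def wedge (i j : ℕ) : ⋀[R]^i B →ₗ[R] ⋀[R]^j B →ₗ[R] ⋀[R]^(i + j) B :=
  LinearMap.mk₂ R (fun x y => ⟨x.1 * y.1, SetLike.mul_mem_graded (A := fun i : ℕ => ⋀[R]^i B) x.2 y.2⟩)
    (fun x y z => Subtype.ext (add_mul x.1 y.1 z.1))
    (fun r x y => Subtype.ext (smul_mul_assoc r x.1 y.1))
    (fun x y z => Subtype.ext (mul_add x.1 y.1 z.1))
    (fun r x y => Subtype.ext (mul_smul_comm r x.1 y.1))

theorem wedge_ι {i j : ℕ} (a : Fin i → B) (b : Fin j → B) :
    wedge i j (ιMulti R i a) (ιMulti R j b) = ιMulti R (i + j) (Fin.append a b) :=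
  Subtype.ext (ExteriorAlgebra.ιMulti_mul_ιMulti a b)

theorem append_mem (N : Submodule R B) {i j : ℕ} (a : Fin i → B) (ha : ∀ k, a k ∈ N)
    (b : Fin j → B) (s : Finset (Fin j)) (hb : ∀ k ∈ s, b k ∈ N) :
    ιMulti R (i + j) (Fin.append a b) ∈ Fil N (i + j) (i + s.card) := by
  classical
  refine mem_fil _ ((Finset.univ.disjSum s).map finSumFinEquiv.toEmbedding) (by simp) ?_
  intro k hk
  obtain ⟨k, hk, rfl⟩ := Finset.mem_map.1 hk
  rcases k with k | k
  · simpa using ha k
  · simpa using hb k (by simpa using hk)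

theorem span_tmul (i j : ℕ) (g : B →ₗ[R] T) (hg : Function.Surjective g) :
    Submodule.span R {x : ⋀[R]^i A ⊗[R] ⋀[R]^j T |
      ∃ (a : Fin i → A) (b : Fin j → B), x = ιMulti R i a ⊗ₜ ιMulti R j (g ∘ b)} = ⊤ := by
  refine eq_top_iff.2 fun x h => ?_
  clear h
  induction x using TensorProduct.induction_on with
  | zero => exact zero_mem _
  | add x y hx hy => exact add_mem hx hy
  | tmul x y =>
    induction x using ext_induction with
    | h0 => simp
    | ha x x' hx hx' => rw [TensorProduct.add_tmul]; exact add_mem hx hx'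
    | hs r x hx => rw [← TensorProduct.smul_tmul']; exact Submodule.smul_mem _ r hx
    | h1 a =>
      induction y using ext_induction with
      | h0 => simp
      | ha x x' hx hx' => rw [TensorProduct.tmul_add]; exact add_mem hx hx'
      | hs r x hx => rw [TensorProduct.tmul_smul]; exact Submodule.smul_mem _ r hx
      | h1 b =>
        choose b' hb' using fun k => hg (b k)
        exact Submodule.subset_span ⟨a, b', by rw [show b = g ∘ b' from funext fun k => (hb' k).symm]⟩

theorem exists_psi (f : A →ₗ[R] B) (i j : ℕ) :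
    ∃ ψ : ⋀[R]^i A ⊗[R] ⋀[R]^j (B ⧸ LinearMap.range f) →ₗ[R]
        (⋀[R]^(i + j) B ⧸ Fil (LinearMap.range f) (i + j) (i + 1)),
      (∀ a b, ψ (ιMulti R i a ⊗ₜ ιMulti R j ((LinearMap.range f).mkQ ∘ b)) =
        Submodule.Quotient.mk (ιMulti R (i + j) (Fin.append (f ∘ a) b))) ∧
      Function.Exact ψ (Submodule.factor (fil_anti _ (i + j) i)) := by
  classical
  set N := LinearMap.range f with hN
  let u : ⋀[R]^j B →ₗ[R] ⋀[R]^i A →ₗ[R] (⋀[R]^(i + j) B ⧸ Fil N (i + j) (i + 1)) :=
    (((wedge i j).compr₂ (Fil N (i + j) (i + 1)).mkQ) ∘ₗ map i f).flip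
  have hu : ∀ a b, u (ιMulti R j b) (ιMulti R i a) =
      Submodule.Quotient.mk (ιMulti R (i + j) (Fin.append (f ∘ a) b)) := fun a b => by
    simp only [u, LinearMap.flip_apply, LinearMap.comp_apply, LinearMap.compr₂_apply,
      map_apply_ιMulti, wedge_ι, Submodule.mkQ_apply]
  obtain ⟨w, hw⟩ := exists_desc N u fun v k hk => linearMap_ext (AlternatingMap.ext fun a => by
    have h := append_mem N (f ∘ a) (fun k => LinearMap.mem_range_self f _) v {k} (by simpa using hk)
    simp only [LinearMap.compAlternatingMap_apply, hu, LinearMap.zero_apply]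
    exact (Submodule.Quotient.mk_eq_zero _).2 h)
  have h1 : ∀ a b, TensorProduct.lift w.flip (ιMulti R i a ⊗ₜ ιMulti R j (N.mkQ ∘ b)) =
      Submodule.Quotient.mk (ιMulti R (i + j) (Fin.append (f ∘ a) b)) := fun a b => by
    rw [TensorProduct.lift.tmul, LinearMap.flip_apply, hw, hu]
  refine ⟨TensorProduct.lift w.flip, h1, LinearMap.exact_iff.2 (le_antisymm ?_ ?_)⟩
  · intro x hx
    obtain ⟨x, rfl⟩ := Submodule.Quotient.mk_surjective _ x
    have hx' : x ∈ Fil N (i + j) i := (Submodule.Quotient.mk_eq_zero _).1 hx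
    clear hx
    induction hx' using Submodule.span_induction with
    | mem x hx =>
      obtain ⟨v, s, h2, h3, rfl⟩ := hx
      obtain ⟨t, ht, hc⟩ := Finset.exists_subset_card_eq h2
      have hc' : tᶜ.card = j := by rw [Finset.card_compl, hc, Fintype.card_fin]; omega
      let σ : Equiv.Perm (Fin (i + j)) := finSumFinEquiv.symm.trans (finSumEquivOfFinset hc hc')
      choose a ha using fun k : Fin i => h3 _ (ht (t.orderEmbOfFin_mem hc k))
      have e : v ∘ σ = Fin.append (f ∘ a) fun k => v (tᶜ.orderEmbOfFin hc' k) := by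
        funext k
        obtain ⟨k, rfl⟩ := finSumFinEquiv.surjective k
        rcases k with k | k
        · simp [σ, ha]
        · simp [σ]
      have e2 : ιMulti R (i + j) v = Equiv.Perm.sign σ • ιMulti R (i + j) (v ∘ σ) := by
        rw [AlternatingMap.map_perm, smul_smul, Int.units_mul_self, one_smul]
      rw [e2, e, Units.smul_def, Submodule.Quotient.mk_smul, ← h1]
      exact Submodule.smul_of_tower_mem _ _ (LinearMap.mem_range_self _ _)
    | zero => exact zero_mem _
    | add x y _ _ hx hy => exact add_mem hx hy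
    | smul r x _ hx => exact Submodule.smul_mem _ r hx
  · rw [LinearMap.range_eq_map, ← span_tmul i j N.mkQ N.mkQ_surjective, Submodule.map_span_le]
    rintro _ ⟨a, b, rfl⟩
    rw [LinearMap.mem_ker, h1]
    exact (Submodule.Quotient.mk_eq_zero _).2
      (append_mem N (f ∘ a) (fun k => LinearMap.mem_range_self f _) b ∅ (by simp))

end Vale.Agent.P297Z.Wh
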