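import Vale.Agent.P297Z.Ch.Defs
import Vale.Agent.P297Z.Ch.WhA
import Vale.Agent.P297Z.K.AK2
import Vale.Agent.P297Z.K.AG

/-!
# P297: the exterior powers of an extension of bundles
-/

open scoped TensorProduct

noncomputable section

namespace Vale.Agent.P297Z

open Finset GMod

variable {X : Spc}

theorem GMod.ext_act_ι (M : GMod X) (n : ℕ) (g : X.J → ℂˣ) (v : Fin n → M.M) :
    (M.ext n).act g (exteriorPower.ιMulti X.R n v) =
      exteriorPower.ιMulti X.R n fun i => M.act g (v i) := (M.ext_act n g).choose_spec.2 v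

theorem GMod.isHom_of_span {A N : GMod X} {F : A.M →ₗ[X.R] N.M} {s : Set A.M}
    (hs : Submodule.span X.R s = ⊤) (h : ∀ g, ∀ m ∈ s, F (A.act g m) = N.act g (F m)) :
    A.IsHom N F := fun g x => by
  have hx : x ∈ Submodule.span X.R s := hs ▸ Submodule.mem_top
  induction hx using Submodule.span_induction with
  | mem x hx => exact h g x hx
  | zero => rw [map_zero, map_zero, map_zero]
  | add x y _ _ hx hy => rw [map_add, map_add, map_add, map_add, hx, hy]
  | smul r x _ hx => rw [act_smul, map_smul, map_smul, act_smul, hx]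

theorem GMod.ext_ind {M : GMod X} {n : ℕ} {P : (M.ext n).M → Prop}
    (h1 : ∀ v, P (exteriorPower.ιMulti X.R n v)) (h0 : P 0) (ha : ∀ x y, P x → P y → P (x + y))
    (hs : ∀ (r : X.R) x, P x → P (r • x)) (x : (M.ext n).M) : P x :=
  Wh.ext_induction (P := P) h1 h0 ha hs x

theorem GMod.isHom_ext {A N : GMod X} {n : ℕ} {F : (A.ext n).M →ₗ[X.R] N.M}
    (h : ∀ g v, F (exteriorPower.ιMulti X.R n fun i => A.act g (v i)) =
      N.act g (F (exteriorPower.ιMulti X.R n v))) : (A.ext n).IsHom N F := fun g x => by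
  induction x using GMod.ext_ind with
  | h1 v => rw [ext_act_ι, h]
  | h0 => rw [map_zero, map_zero, map_zero]
  | ha x y hx hy => rw [map_add, map_add, map_add, map_add, hx, hy]
  | hs r x hx => rw [act_smul, map_smul, map_smul, act_smul, hx]

theorem GMod.IsHom.ext {A B : GMod X} {f : A.M →ₗ[X.R] B.M} (h : A.IsHom B f) (n : ℕ) :
    (A.ext n).IsHom (B.ext n) (exteriorPower.map n f) := isHom_ext fun g v => by
  refine (exteriorPower.map_apply_ιMulti f _).trans ?_
  refine Eq.trans ?_ (congrArg ((B.ext n).act g) (exteriorPower.map_apply_ιMulti f v)).symm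
  rw [ext_act_ι]
  exact congrArg _ (funext fun i => h g (v i))

theorem GMod.Qis.ext {A B : GMod X} {f : A.M →ₗ[X.R] B.M} (h : Qis A B f) (n : ℕ) :
    Qis (A.ext n) (B.ext n) (exteriorPower.map n f) :=
  ⟨h.1.ext n, fun z => AK.iso_ext (h.2 z) n⟩

namespace Wh

section chain

variable (Q G : ℕ → GMod X) (r : ℕ → ℕ) (ψ : ∀ i, (G i).M →ₗ[X.R] (Q (i + 1)).M)
  (π : ∀ i, (Q (i + 1)).M →ₗ[X.R] (Q i).M)

theorem fdim_step {A B C : GMod X} {u : A.M →ₗ[X.R] B.M} {v : B.M →ₗ[X.R] C.M}
    (hex : Function.Exact u v) (hs : Function.Surjective v) (z : X.Pt) :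
    fdim z.1 B.M ≤ fdim z.1 A.M + fdim z.1 C.M := by
  have h := frk_add_of_exact (fib_exact (z := z.1) hex.apply_apply_eq_zero
    (.of_ker fun b => (hex b).1) (.of_surj hs))
  have h1 : frk z.1 u ≤ fdim z.1 A.M := LinearMap.finrank_range_le _
  have h2 : frk z.1 v ≤ fdim z.1 C.M := Submodule.finrank_le _
  omega

theorem fdim_chain (hs : ∀ i, Function.Surjective (π i)) (h0 : Subsingleton (Q 0).M) (n : ℕ)
    (hex : ∀ i < n, Function.Exact (ψ i) (π i)) (hG : ∀ i < n, (G i).IsBun (r i)) (z : X.Pt) :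
    fdim z.1 (Q n).M ≤ ∑ i ∈ range n, r i := by
  induction n with
  | zero => exact (fdim_eq_zero_iff.2 ZeroAt.of_subsingleton).le
  | succ n ih =>
    have h1 := fdim_step (hex n n.lt_succ_self) (hs n) z
    have h2 := ih (fun i hi => hex i (hi.trans n.lt_succ_self))
      fun i hi => hG i (hi.trans n.lt_succ_self)
    rw [(hG n n.lt_succ_self).fdim z] at h1
    rw [sum_range_succ]
    omega

/-- a chain of right exact sequences in which the ranks add up -/
theorem kc_chain (hπ : ∀ i, (Q (i + 1)).IsHom (Q i) (π i)) (hs : ∀ i, Function.Surjective (π i))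
    (h0 : Subsingleton (Q 0).M) (n : ℕ) (hψ : ∀ i < n, (G i).IsHom (Q (i + 1)) (ψ i))
    (hex : ∀ i < n, Function.Exact (ψ i) (π i)) (hG : ∀ i < n, (G i).IsBun (r i))
    (hn : (Q n).IsBun (∑ i ∈ range n, r i)) :
    kc (Q n) (∑ i ∈ range n, r i) = ∑ i ∈ range n, kc (G i) (r i) := by
  induction n with
  | zero => exact kc_zero fun _ => ZeroAt.of_subsingleton
  | succ n ih =>
    have l := n.lt_succ_self
    have hex' := fun i hi => hex i (Nat.lt_succ_of_lt hi : i < n + 1)
    have hG' := fun i hi => hG i (Nat.lt_succ_of_lt hi : i < n + 1)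
    rw [sum_range_succ, add_comm _ (r n)] at hn
    have hQ : (Q n).IsBun (∑ i ∈ range n, r i) := isBun_of_rank fun z => by
      have h1 := fdim_step (hex n l) (hs n) z
      have h2 := fdim_chain Q G r ψ π hs h0 n hex' hG' z
      rw [(hG n l).fdim z, hn.fdim z] at h1
      omega
    have s := (hπ n).ses_ker fun _ => .of_surj (hs n)
    have hK := s.isBun_left hn hQ
    have q : Qis (G n) (hπ n).kerM ((ψ n).codRestrict _ (hex n l).apply_apply_eq_zero) :=
      ⟨(hψ n l).codRestrict _ _, fun z => isoAt_of_surjAt (hG n l z) (hK z) (.of_surj fun b =>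
        ((hex n l b.1).1 b.2).imp fun _ h => Subtype.ext h)⟩
    rw [sum_range_succ, sum_range_succ, add_comm _ (r n), kc_ses s hK hQ,
      ih (fun i hi => hψ i (Nat.lt_succ_of_lt hi)) hex' hG' hQ, kc_qis q, add_comm]

end chain

variable {A B C : GMod X} {f : A.M →ₗ[X.R] B.M}

theorem fil_stab (hf : A.IsHom B f) (n i : ℕ) : (B.ext n).Stab (Fil (LinearMap.range f) n i) :=
  stab_span (M := B.ext n) fun g _ ⟨v, s, h1, h2, h3⟩ => by
    rw [h3, ext_act_ι]
    exact mem_fil _ s h1 fun k hk => hf.stab_range g _ (h2 k hk)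

/-- the quotients of the filtration -/
def Qt (hf : A.IsHom B f) (n i : ℕ) : GMod X := (B.ext n).quo _ (fil_stab hf n i)

theorem exists_psi_hom (hf : A.IsHom B f) {i j n : ℕ} (h : i + j = n) :
    ∃ ψ : ((A.ext i).ten (hf.cokerM.ext j)).M →ₗ[X.R] (Qt hf n (i + 1)).M,
      IsHom _ _ ψ ∧ Function.Exact ψ (Submodule.factor (fil_anti (LinearMap.range f) n i)) := by
  subst h
  obtain ⟨ψ, h1, h2⟩ := exists_psi f i j
  refine ⟨ψ, isHom_of_span (span_tmul i j _ (LinearMap.range f).mkQ_surjective) ?_, h2⟩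
  rintro t _ ⟨a, b, rfl⟩
  have e1 := ext_act_ι A i t a
  have e2 := ext_act_ι hf.cokerM j t ((LinearMap.range f).mkQ ∘ b)
  refine (congrArg ψ (congrArg₂ (fun x y => x ⊗ₜ[X.R] y) e1 e2)).trans ?_
  refine (h1 _ fun k => B.act t (b k)).trans (Eq.trans ?_ (congrArg _ (h1 a b)).symm)
  refine congrArg Submodule.Quotient.mk (Eq.trans (congrArg _ (funext fun k => ?_))
    (ext_act_ι B (i + j) t _).symm)
  refine Fin.addCases (fun k => ?_) (fun k => ?_) k
  · simp only [Fin.append_left, Function.comp_apply]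
    exact hf t _
  · simp only [Fin.append_right]

end Wh

theorem kc_ext_ses {A B C : GMod X} {a c : ℕ} {f : A.M →ₗ[X.R] B.M} {g : B.M →ₗ[X.R] C.M}
    (h : SES A B C f g) (hA : A.IsBun a) (hC : C.IsBun c) (n : ℕ) :
    kc (B.ext n) ((a + c).choose n) = ∑ p ∈ antidiagonal n,
      kc (A.ext p.1) (a.choose p.1) * kc (C.ext p.2) (c.choose p.2) := by
  have q := h.qis_quo
  have hC' : h.1.cokerM.IsBun c := q.isBun_iff.2 hC
  have ex : ∀ i, ∃ ψ : ((A.ext i).ten (h.1.cokerM.ext (n - i))).M →ₗ[X.R] (Wh.Qt h.1 n (i + 1)).M,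
      i < n + 1 → IsHom _ _ ψ ∧
        Function.Exact ψ (Submodule.factor (Wh.fil_anti (LinearMap.range f) n i)) := fun i => by
    by_cases hi : i < n + 1
    · exact (Wh.exists_psi_hom h.1 (by omega : i + (n - i) = n)).imp fun _ h _ => h
    · exact ⟨0, fun h => absurd h hi⟩
  choose ψ hψ using ex
  have e : (a + c).choose n = ∑ i ∈ range (n + 1), a.choose i * c.choose (n - i) := by
    rw [Nat.add_choose_eq, Nat.sum_antidiagonal_eq_sum_range_succ_mk]
  have q2 : Qis (B.ext n) (Wh.Qt h.1 n (n + 1)) (Submodule.mkQ _) :=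
    ⟨isHom_mkQ _ _ _, fun _ => .of_bij ⟨LinearMap.ker_eq_bot.1
      ((Submodule.ker_mkQ _).trans (Wh.fil_top _ n)), Submodule.mkQ_surjective _⟩⟩
  have k := Wh.kc_chain (Wh.Qt h.1 n) (fun i => (A.ext i).ten (h.1.cokerM.ext (n - i)))
    (fun i => a.choose i * c.choose (n - i)) ψ
    (fun i => Submodule.factor (Wh.fil_anti (LinearMap.range f) n i))
    (fun i t x => by
      obtain ⟨x, rfl⟩ := Submodule.Quotient.mk_surjective _ x
      rfl)
    (fun i => Submodule.factor_surjective _)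
    (Submodule.Quotient.subsingleton_iff.2 (Wh.fil_zero _ n)) (n + 1) (fun i hi => (hψ i hi).1)
    (fun i hi => (hψ i hi).2) (fun i _ => (hA.ext i).ten (hC'.ext _))
    (e ▸ q2.isBun_iff.1 ((h.isBun_mid hA hC).ext n))
  rw [kc_qis q2, e, k, Nat.sum_antidiagonal_eq_sum_range_succ_mk]
  exact sum_congr rfl fun i _ => by rw [kc_ten (hA.ext i) (hC'.ext _), kc_qis (q.ext _)]

end Vale.Agent.P297Z
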